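import Vale.Agent.P286EF.Ls

/-!
# Admissible bases: base change, gauge transformations, comparison
-/

set_option linter.all false

namespace Vale.Agent.P286E

open Matrix Vale.Agent.P286

noncomputable section

attribute [-instance] HahnSeries.powerSeriesAlgebra

variable {A B D : Type} [CommRing A] [CommRing B] [CommRing D] {N : ℕ}
  {v w : ℕ × Fin N → Fin N → Ls A}

theorem rg1 {E : Type*} [Ring E] (p q s : E) (h : p * q = 1) :
    p * s * q - 1 = p * (s - 1) * q := by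
  rw [mul_sub, sub_mul, mul_one, h]

theorem rg2 {E : Type*} [Ring E] (p q : E) : q - 1 = (p * q - 1) - (p - 1) * q := by
  rw [sub_mul, one_mul]; abel

theorem rg3 {E : Type*} [Ring E] (p q : E) (e : q * p = 1) : q - 1 = -(q * (p - 1)) := by
  rw [mul_sub, e, mul_one]; abel

theorem rg4 {E : Type*} [Ring E] (p q : E) (e : p * q = 1) : q - 1 = -((p - 1) * q) := by
  rw [sub_mul, e, one_mul]; abel

theorem finRank_one {I : Type} : FinRank ((1 : Module.End A (I →₀ A)) - 1) :=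
  ⟨∅, fun x i _ => by simp⟩

theorem crd_comp_of {L : (Fin N → Ls A) →ₗ[A] Qm N A} (h : L ∘ₗ lin v = 1) : crd v ∘ₗ lin v = 1 :=
  Classical.epsilon_spec (p := fun L : (Fin N → Ls A) →ₗ[A] Qm N A => L ∘ₗ lin v = 1) ⟨L, h⟩

theorem Adm.crd_comp (h : Adm v) : crd v ∘ₗ lin v = 1 := by
  obtain ⟨-, -, L, hL, -⟩ := h
  exact crd_comp_of hL

theorem Adm.crd_lin (h : Adm v) (z : Qm N A) : crd v (lin v z) = z :=
  LinearMap.congr_fun h.crd_comp z

theorem Adm.inj (h : Adm v) : Function.Injective (lin v) :=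
  Function.LeftInverse.injective h.crd_lin

theorem Adm.lin_crd (h : Adm v) {m : Fin N → Ls A} (hm : m ∈ LinearMap.range (lin v)) :
    lin v (crd v m) = m := by
  obtain ⟨z, rfl⟩ := hm
  rw [h.crd_lin]

/-- A vector of the lattice which vanishes to a high order is zero. -/
theorem Adm.exists_ord (h : Adm v) : ∃ n : ℤ, ∀ m ∈ LinearMap.range (lin v),
    (∀ i, Ord n (m i)) → m = 0 := by
  obtain ⟨-, n, L, hL, h0⟩ := h
  refine ⟨n, ?_⟩
  rintro _ ⟨z, rfl⟩ hm
  have h1 : L (lin v z) = z := LinearMap.congr_fun hL z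
  rw [h0 _ hm] at h1
  rw [← h1, map_zero]

/-- The scalar matrix `t ^ n`. -/
def tm (N : ℕ) (A : Type) [CommRing A] (n : ℤ) : Matrix (Fin N) (Fin N) (Ls A) :=
  Matrix.scalar (Fin N) (tp A n)

theorem tm_mulVec (n : ℤ) (m : Fin N → Ls A) : tm N A n *ᵥ m = tp A n • m := by
  funext i
  rw [tm, Matrix.scalar_apply, mulVec_diagonal]
  rfl

theorem tm_mul (m n : ℤ) : tm N A m * tm N A n = tm N A (m + n) := by
  rw [tm, tm, ← map_mul, tp_mul]; rfl

theorem tm_zero : tm N A 0 = 1 := by rw [tm, tp_zero, map_one]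

theorem tm_map (f : A →+* B) (n : ℤ) : (tm N A n).map (lm f) = tm N B n := by
  rw [tm, tm, Matrix.scalar_apply, Matrix.scalar_apply, diagonal_map (map_zero _), lm_tp]

/-- A linear map which kills `tⁿ A[[t]]^N` factors through the polar part of `t⁻ⁿ w`. -/
theorem factor_pol {V : Type} [AddCommGroup V] [Module A V] {n : ℤ} {L : (Fin N → Ls A) →ₗ[A] V}
    (h0 : ∀ w, (∀ i, Ord n (w i)) → L w = 0) :
    L = (L ∘ₗ act (tm N A n) ∘ₗ lin (std N A)) ∘ₗ (pol N A ∘ₗ act (tm N A (-n))) := by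
  refine LinearMap.ext fun m => ?_
  have h1 : L (tm N A n *ᵥ (tm N A (-n) *ᵥ m - lin (std N A) (pol N A (tm N A (-n) *ᵥ m)))) = 0 := by
    refine h0 _ fun i => ?_
    rw [tm_mulVec]
    have := (Ord.tp (A := A) n).mul' (ord_sub_std (tm N A (-n) *ᵥ m) i)
    rwa [add_zero] at this
  rw [mulVec_sub, mulVec_mulVec, tm_mul, add_neg_cancel, tm_zero, one_mulVec, map_sub,
    sub_eq_zero] at h1
  exact h1

theorem bc_pol_act_lin (f : A →+* B) (a : Matrix (Fin N) (Fin N) (Ls A))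
    (v : ℕ × Fin N → Fin N → Ls A) :
    bc f (pol N A ∘ₗ act a ∘ₗ lin v) =
      pol N B ∘ₗ act (a.map (lm f)) ∘ₗ lin (fun p => lm f ∘ v p) :=
  qm_ext fun p => by
    rw [bc_single]
    change (pol N A (a *ᵥ lin _ _)).mapRange f _ = pol N B (_ *ᵥ lin _ _)
    rw [lin_single, lin_single, ← pol_lm, lm_mulVec]

/-- Base change of an admissible basis. -/
theorem Adm.bc (h : Adm v) (f : A →+* B) : Adm (fun p => lm f ∘ v p) := by
  obtain ⟨h1, n, L, hL, h0⟩ := h
  refine ⟨?_, n, P286.bc f (L ∘ₗ act (tm N A n) ∘ₗ lin (std N A)) ∘ₗ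
    (pol N B ∘ₗ act (tm N B (-n))), ?_, fun w hw => ?_⟩
  · rw [← bc_pol_lin]
    exact h1.bc_sub_one f
  · have e : (L ∘ₗ act (tm N A n) ∘ₗ lin (std N A)) * (pol N A ∘ₗ act (tm N A (-n)) ∘ₗ lin v) = 1 := by
      rw [← hL]
      conv_rhs => rw [factor_pol h0]
      rfl
    have e2 := congrArg (P286.bc f) e
    rw [bc_mul, bc_one, bc_pol_act_lin, tm_map] at e2
    exact e2
  · have : pol N B (tm N B (-n) *ᵥ w) = 0 := pol_eq_zero.2 fun i => by
      rw [tm_mulVec]
      have := (Ord.tp (A := B) (-n)).mul' (hw i)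
      rwa [neg_add_cancel] at this
    change P286.bc f _ (pol N B (tm N B (-n) *ᵥ w)) = 0
    rw [this, map_zero]

/-- Base change of a linear map which kills `tⁿ A[[t]]^N`. -/
theorem exists_bcL (f : A →+* B) {n : ℤ} {L : (Fin N → Ls A) →ₗ[A] Qm N A}
    (h0 : ∀ w, (∀ i, Ord n (w i)) → L w = 0) :
    ∃ L' : (Fin N → Ls B) →ₗ[B] Qm N B, (∀ w, (∀ i, Ord n (w i)) → L' w = 0) ∧
      ∀ ξ, L' (lm f ∘ ξ) = (L ξ).mapRange f (map_zero f) := by
  refine ⟨P286.bc f (L ∘ₗ act (tm N A n) ∘ₗ lin (std N A)) ∘ₗ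
    (pol N B ∘ₗ act (tm N B (-n))), fun w hw => ?_, fun ξ => ?_⟩
  · have : pol N B (tm N B (-n) *ᵥ w) = 0 := pol_eq_zero.2 fun i => by
      rw [tm_mulVec]
      have := (Ord.tp (A := B) (-n)).mul' (hw i)
      rwa [neg_add_cancel] at this
    rw [LinearMap.comp_apply, LinearMap.comp_apply, act_apply, this, map_zero]
  · have e := LinearMap.congr_fun (factor_pol h0) ξ
    rw [LinearMap.comp_apply, LinearMap.comp_apply, act_apply, ← tm_map f, ← lm_mulVec, pol_lm,
      bc_mapRange, e, LinearMap.comp_apply (L ∘ₗ _), LinearMap.comp_apply (pol N A), act_apply]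

theorem lm_injective {f : A →+* B} (hf : Function.Injective f) : Function.Injective (lm f) :=
  fun u w h => by
    ext k
    exact hf (congrArg (fun z : Ls B => z.coeff k) h)

/-- Descent of the membership in a lattice along an injective homomorphism. -/
theorem Adm.desc (h : Adm v) {f : A →+* B} (hf : Function.Injective f) {ξ : Fin N → Ls A}
    (hξ : lm f ∘ ξ ∈ LinearMap.range (lin fun p => lm f ∘ v p)) :
    ξ ∈ LinearMap.range (lin v) := by
  obtain ⟨-, n, L, hL, h0⟩ := h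
  obtain ⟨L', -, e⟩ := exists_bcL f h0
  have h1 : L' ∘ₗ lin (fun p => lm f ∘ v p) = 1 := qm_ext fun p => by
    have h2 : L (v p) = Finsupp.single p 1 := by
      rw [← lin_single v p]; exact LinearMap.congr_fun hL _
    rw [LinearMap.comp_apply, lin_single, e, h2, Finsupp.mapRange_single, map_one,
      Module.End.one_apply]
  obtain ⟨z, hz⟩ := hξ
  have h3 : z = (L ξ).mapRange f (map_zero f) := by
    rw [← e, ← hz]; exact (LinearMap.congr_fun h1 z).symm
  rw [h3, ← lm_lin] at hz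
  exact ⟨L ξ, funext fun i => lm_injective hf (congrFun hz i)⟩

/-- The basis `a v`, renumbered by the action of `b = a⁻¹` on the polar parts. -/
def gau (a b : Matrix (Fin N) (Fin N) (Ls A)) (v : ℕ × Fin N → Fin N → Ls A) :
    ℕ × Fin N → Fin N → Ls A := fam (act a ∘ₗ lin v ∘ₗ pa b)

theorem lin_gau (a b : Matrix (Fin N) (Fin N) (Ls A)) (v : ℕ × Fin N → Fin N → Ls A) :
    lin (gau a b v) = act a ∘ₗ lin v ∘ₗ pa b := lin_fam _

theorem lin_gau_apply (a b : Matrix (Fin N) (Fin N) (Ls A)) (v : ℕ × Fin N → Fin N → Ls A)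
    (z : Qm N A) : lin (gau a b v) z = a *ᵥ lin v (pa b z) := by
  rw [lin_gau, LinearMap.comp_apply, LinearMap.comp_apply, act_apply]

theorem gau_apply (a b : Matrix (Fin N) (Fin N) (Ls A)) (v : ℕ × Fin N → Fin N → Ls A)
    (p : ℕ × Fin N) : gau a b v p = a *ᵥ lin v (pa b (Finsupp.single p 1)) := by
  rw [← lin_gau_apply, lin_single]

variable {a b : Matrix (Fin N) (Fin N) (Ls A)}

theorem pol_lin_gau (ha : IntM a) (b : Matrix (Fin N) (Fin N) (Ls A))
    (v : ℕ × Fin N → Fin N → Ls A) :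
    pol N A ∘ₗ lin (gau a b v) = pa a * (pol N A ∘ₗ lin v) * pa b := by
  rw [lin_gau]
  exact LinearMap.ext fun z => (pa_pol ha _).symm

theorem Adm.gau (h : Adm v) (ha : IntM a) (hb : IntM b) (hab : a * b = 1) (hba : b * a = 1) :
    Adm (gau a b v) := by
  obtain ⟨h1, n, L, hL, h0⟩ := h
  have e : pa a * pa b = 1 := by rw [← pa_mul ha, hab, pa_one]
  refine ⟨?_, n, pa a ∘ₗ L ∘ₗ act b, ?_, fun w hw => ?_⟩
  · rw [pol_lin_gau ha]
    have e2 : pa a * (pol N A ∘ₗ lin v) * pa b - 1 = pa a * (pol N A ∘ₗ lin v - 1) * pa b :=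
      rg1 (pa a) (pa b) (pol N A ∘ₗ lin v) e
    rw [e2]
    exact (h1.mul_left _).mul_right _
  · rw [lin_gau, ← e]
    refine LinearMap.ext fun z => ?_
    change pa a (L (b *ᵥ (a *ᵥ lin v (pa b z)))) = pa a (pa b z)
    rw [mulVec_mulVec, hba, one_mulVec]
    exact congrArg (pa a) (LinearMap.congr_fun hL _)
  · change pa a (L (b *ᵥ w)) = 0
    rw [h0 _ (hb.mulVec hw), map_zero]

theorem range_gau (ha : IntM a) (hb : IntM b) (hba : b * a = 1) (v : ℕ × Fin N → Fin N → Ls A) :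
    LinearMap.range (lin (gau a b v)) = (LinearMap.range (lin v)).map (act a) := by
  have e : pa b * pa a = 1 := by rw [← pa_mul hb, hba, pa_one]
  rw [lin_gau, LinearMap.range_comp, LinearMap.range_comp_of_range_eq_top]
  exact LinearMap.range_eq_top.2 fun z => ⟨pa a z, LinearMap.congr_fun e z⟩

theorem fdet_pol_gau (h : FinRank (pol N A ∘ₗ lin v - 1)) (ha : IntM a) (hb : IntM b)
    (hab : a * b = 1) (hba : b * a = 1) :
    fdet (pol N A ∘ₗ lin (gau a b v)) = fdet (pol N A ∘ₗ lin v) := by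
  rw [pol_lin_gau ha]
  exact fdet_conj (paU ha hb hab hba) h

theorem lm_gau (f : A →+* B) (a b : Matrix (Fin N) (Fin N) (Ls A)) (v : ℕ × Fin N → Fin N → Ls A) :
    (fun p => lm f ∘ gau a b v p) =
      gau (a.map (lm f)) (b.map (lm f)) (fun p => lm f ∘ v p) := by
  funext p
  rw [gau_apply, gau_apply, lm_mulVec, lm_lin, ← bc_pa, bc_single]

theorem gau_one (v : ℕ × Fin N → Fin N → Ls A) : gau 1 1 v = v := by
  funext p
  rw [gau_apply, pa_one, one_mulVec, Module.End.one_apply, lin_single]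

theorem gau_gau {a' b' : Matrix (Fin N) (Fin N) (Ls A)} (hb : IntM b)
    (v : ℕ × Fin N → Fin N → Ls A) : gau a' b' (gau a b v) = gau (a' * a) (b * b') v := by
  funext p
  rw [gau_apply, lin_gau_apply, gau_apply, pa_mul hb, mulVec_mulVec, Module.End.mul_apply]

/-! ### Comparison of two admissible bases -/

/-- The expression of the family `v` in the basis `w`. -/
def chg (w v : ℕ × Fin N → Fin N → Ls A) : Module.End A (Qm N A) := crd w ∘ₗ lin v

theorem Adm.chg_self (h : Adm v) : chg v v = 1 := h.crd_comp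

theorem Adm.lin_chg (hw : Adm w) (h : LinearMap.range (lin v) ≤ LinearMap.range (lin w)) :
    lin w ∘ₗ chg w v = lin v :=
  LinearMap.ext fun z => hw.lin_crd (h ⟨z, rfl⟩)

theorem Adm.chg_eq (hw : Adm w) {φ : Module.End A (Qm N A)} (h : lin w ∘ₗ φ = lin v) :
    chg w v = φ := by
  rw [chg, ← h, ← LinearMap.comp_assoc, hw.crd_comp]
  rfl

theorem Adm.finRank_chg (hv : Adm v) (hw : Adm w)
    (h : LinearMap.range (lin v) ≤ LinearMap.range (lin w)) : FinRank (chg w v - 1) := by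
  have e : pol N A ∘ₗ lin v = (pol N A ∘ₗ lin w) * chg w v := by
    rw [← hw.lin_chg h]; rfl
  have e2 : chg w v - 1 = (pol N A ∘ₗ lin v - 1) - (pol N A ∘ₗ lin w - 1) * chg w v := by
    rw [e]; exact rg2 (pol N A ∘ₗ lin w : Module.End A (Qm N A)) (chg w v)
  rw [e2]
  exact hv.1.sub (hw.1.mul_right _)

theorem isUnit_of_left {I : Type} {φ ψ : Module.End A (I →₀ A)} (h : FinRank (φ - 1))
    (e : ψ * φ = 1) : IsUnit φ := by
  have h2 : FinRank (ψ - 1) := by
    have e2 : ψ - 1 = -(ψ * (φ - 1)) := rg3 φ ψ e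
    rw [e2]
    exact (h.mul_left _).neg
  have h3 := fdet_mul h2 h
  rw [e, fdet_one, mul_comm] at h3
  exact isUnit_of_isUnit_fdet h (IsUnit.of_mul_eq_one _ h3.symm)

theorem isUnit_of_right {I : Type} {φ ψ : Module.End A (I →₀ A)} (h : FinRank (φ - 1))
    (e : φ * ψ = 1) : IsUnit φ := by
  have h2 : FinRank (ψ - 1) := by
    have e2 : ψ - 1 = -((φ - 1) * ψ) := rg4 φ ψ e
    rw [e2]
    exact (h.mul_right _).neg
  have h3 := fdet_mul h h2
  rw [e, fdet_one] at h3
  exact isUnit_of_isUnit_fdet h (IsUnit.of_mul_eq_one _ h3.symm)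

theorem isUnit_of_surj {I : Type} {φ : Module.End A (I →₀ A)} (h : FinRank (φ - 1))
    (e : Function.Surjective φ) : IsUnit φ := by
  obtain ⟨ψ, hψ⟩ := Module.projective_lifting_property φ LinearMap.id e
  exact isUnit_of_right h hψ

theorem Adm.isUnit_chg (hv : Adm v) (hw : Adm w)
    (h : LinearMap.range (lin v) ≤ LinearMap.range (lin w)) : IsUnit (chg w v) :=
  isUnit_of_left (ψ := crd v ∘ₗ lin w) (hv.finRank_chg hw h) (by
    change (crd v ∘ₗ lin w) ∘ₗ chg w v = 1
    rw [LinearMap.comp_assoc, hw.lin_chg h, hv.crd_comp])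

theorem Adm.isUnit_fdet_chg (hv : Adm v) (hw : Adm w)
    (h : LinearMap.range (lin v) ≤ LinearMap.range (lin w)) : IsUnit (fdet (chg w v)) :=
  isUnit_fdet (hv.finRank_chg hw h) (hv.isUnit_chg hw h)

/-- An inclusion of lattices with admissible bases is an equality. -/
theorem Adm.range_eq (hv : Adm v) (hw : Adm w)
    (h : LinearMap.range (lin v) ≤ LinearMap.range (lin w)) :
    LinearMap.range (lin v) = LinearMap.range (lin w) := by
  obtain ⟨u, hu⟩ := hv.isUnit_chg hw h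
  rw [← hw.lin_chg h, LinearMap.range_comp_of_range_eq_top]
  rw [← hu]
  exact LinearMap.range_eq_top.2 fun z => ⟨_, LinearMap.congr_fun u.mul_inv z⟩

theorem Adm.chg_mul {u : ℕ × Fin N → Fin N → Ls A} (hv : Adm v)
    (h : LinearMap.range (lin u) ≤ LinearMap.range (lin v)) (w : ℕ × Fin N → Fin N → Ls A) :
    chg w v * chg v u = chg w u := by
  change (crd w ∘ₗ lin v) ∘ₗ chg v u = crd w ∘ₗ lin u
  rw [LinearMap.comp_assoc, hv.lin_chg h]

theorem Adm.bc_chg (hw : Adm w) (h : LinearMap.range (lin v) ≤ LinearMap.range (lin w))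
    (f : A →+* B) :
    chg (fun p => lm f ∘ w p) (fun p => lm f ∘ v p) = P286.bc f (chg w v) :=
  (hw.bc f).chg_eq (by
    rw [lin_bc, hw.lin_chg h]
    congr 1
    funext p
    rw [fam, lin_single])

theorem Adm.gau_chg (hw : Adm w) (h : LinearMap.range (lin v) ≤ LinearMap.range (lin w))
    (ha : IntM a) (hb : IntM b) (hab : a * b = 1) (hba : b * a = 1) :
    chg (P286E.gau a b w) (P286E.gau a b v) = pa a * chg w v * pa b :=
  (hw.gau ha hb hab hba).chg_eq (by
    have e : pa b * pa a = 1 := by rw [← pa_mul hb, hba, pa_one]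
    rw [lin_gau, lin_gau, ← hw.lin_chg h]
    refine LinearMap.ext fun z => ?_
    change a *ᵥ lin w ((pa b * pa a) (chg w v (pa b z))) = a *ᵥ lin w (chg w v (pa b z))
    rw [e]
    rfl)

/-- The determinant of the polar part operator under a change of the basis. -/
theorem Adm.fdet_pol (hv : Adm v) (hw : Adm w)
    (h : LinearMap.range (lin v) ≤ LinearMap.range (lin w)) :
    fdet (pol N A ∘ₗ lin v) = fdet (pol N A ∘ₗ lin w) * fdet (chg w v) := by
  rw [← fdet_mul hw.1 (hv.finRank_chg hw h), ← hw.lin_chg h]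
  rfl

/-- A change of the basis by an invertible operator. -/
theorem Adm.comp (h : Adm v) {φ : Module.End A (Qm N A)} (h1 : FinRank (φ - 1)) (h2 : IsUnit φ) :
    Adm (fam (lin v ∘ₗ φ)) := by
  obtain ⟨h3, n, L, hL, h0⟩ := h
  obtain ⟨u, rfl⟩ := h2
  refine ⟨?_, n, (u⁻¹ : (Module.End A (Qm N A))ˣ).1 ∘ₗ L, ?_, fun w hw => ?_⟩
  · rw [lin_fam]
    exact h3.mul_sub_one h1
  · rw [lin_fam, ← u.inv_mul]
    refine LinearMap.ext fun z => ?_
    exact congrArg (u⁻¹ : (Module.End A (Qm N A))ˣ).1 (LinearMap.congr_fun hL _)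
  · rw [LinearMap.comp_apply, h0 w hw, map_zero]

/-! ### Lattices without cohomology -/

theorem adm_of_isUnit (h1 : FinRank (pol N A ∘ₗ lin v - 1)) (h2 : IsUnit (pol N A ∘ₗ lin v)) :
    Adm v := by
  obtain ⟨u, hu⟩ := h2
  refine ⟨h1, 0, (u⁻¹ : (Module.End A (Qm N A))ˣ).1 ∘ₗ pol N A, ?_, fun w hw => ?_⟩
  · rw [LinearMap.comp_assoc, ← hu]
    exact u.inv_mul
  · rw [LinearMap.comp_apply, pol_eq_zero.2 hw, map_zero]

theorem adm_of_eq_one (h : pol N A ∘ₗ lin v = 1) : Adm v :=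
  adm_of_isUnit (by rw [h]; exact finRank_one) (by rw [h]; exact isUnit_one)

theorem adm_std : Adm (std N A) := adm_of_eq_one pol_comp_std

theorem isCompl_of_isUnit (h : IsUnit (pol N A ∘ₗ lin v)) :
    IsCompl (LinearMap.range (lin v)) (LinearMap.ker (pol N A)) := by
  obtain ⟨u, hu⟩ := h
  constructor
  · rw [Submodule.disjoint_def]
    rintro _ ⟨z, rfl⟩ hz
    have h1 : u.1 z = 0 := by rw [hu]; exact hz
    have h2 : z = 0 := by
      rw [← show (u⁻¹).1 (u.1 z) = z from LinearMap.congr_fun u.inv_mul z, h1, map_zero]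
    rw [h2, map_zero]
  · rw [codisjoint_iff, eq_top_iff]
    intro m _
    refine Submodule.mem_sup.2 ⟨lin v ((u⁻¹).1 (pol N A m)), ⟨_, rfl⟩,
      m - lin v ((u⁻¹).1 (pol N A m)), ?_, by abel⟩
    rw [LinearMap.mem_ker, map_sub, sub_eq_zero]
    have := LinearMap.congr_fun u.mul_inv (pol N A m)
    rw [hu] at this
    exact this.symm

theorem isUnit_of_sup (h1 : FinRank (pol N A ∘ₗ lin v - 1))
    (h : ∀ m, ∃ z, ∀ i, Ord 0 ((m - lin v z) i)) : IsUnit (pol N A ∘ₗ lin v) :=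
  isUnit_of_surj h1 fun y => by
    obtain ⟨z, hz⟩ := h (lin (std N A) y)
    have := pol_eq_zero.2 hz
    rw [map_sub, pol_lin_std, sub_eq_zero] at this
    exact ⟨z, this.symm⟩

/-- The determinant of the polar part operator is invertible iff the cohomology vanishes. -/
theorem Adm.isUnit_iff (h : Adm v) : IsUnit (fdet (pol N A ∘ₗ lin v)) ↔
    IsCompl (LinearMap.range (lin v)) (LinearMap.ker (pol N A)) := by
  refine ⟨fun hu => isCompl_of_isUnit (isUnit_of_isUnit_fdet h.1 hu), fun hc => ?_⟩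
  refine isUnit_fdet h.1 (isUnit_of_sup h.1 fun m => ?_)
  have hm : m ∈ LinearMap.range (lin v) ⊔ LinearMap.ker (pol N A) := by
    rw [hc.sup_eq_top]; trivial
  obtain ⟨_, ⟨z, rfl⟩, y, hy, e⟩ := Submodule.mem_sup.1 hm
  exact ⟨z, by rw [← e, add_sub_cancel_left]; exact pol_eq_zero.1 hy⟩

/-- A complement of the power series has a basis with the standard polar parts. -/
theorem exists_basis_of_isCompl {M : Submodule A (Fin N → Ls A)}
    (h : IsCompl M (LinearMap.ker (pol N A))) :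
    ∃ v, pol N A ∘ₗ lin v = 1 ∧ LinearMap.range (lin v) = M := by
  have h1 : ∀ m : Fin N → Ls A, ∃ y ∈ M, pol N A y = pol N A m := fun m => by
    have hm : m ∈ M ⊔ LinearMap.ker (pol N A) := by rw [h.sup_eq_top]; trivial
    obtain ⟨y, hy, z, hz, e⟩ := Submodule.mem_sup.1 hm
    exact ⟨y, hy, by rw [← e, map_add, LinearMap.mem_ker.1 hz, add_zero]⟩
  choose y hy e using h1
  have h2 : pol N A ∘ₗ lin (fun p => y (std N A p)) = 1 := qm_ext fun p => by
    rw [LinearMap.comp_apply, lin_single, e, pol_std]; rfl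
  have h3 : LinearMap.range (lin fun p => y (std N A p)) ≤ M := range_lin_le.2 fun p => hy _
  refine ⟨_, h2, le_antisymm h3 fun m hm => ⟨pol N A m, ?_⟩⟩
  refine (sub_eq_zero.1 (Submodule.disjoint_def.1 h.disjoint _ (sub_mem hm (h3 ⟨_, rfl⟩)) ?_)).symm
  rw [LinearMap.mem_ker, map_sub, sub_eq_zero]
  exact (LinearMap.congr_fun h2 _).symm

end

end Vale.Agent.P286E
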