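import Vale.Agent.P286EF.Ls

/-!
# The groups `SL_2`, `SO_3` over Laurent series and the adjoint representation
-/

set_option linter.all false

namespace Vale.Agent.P286E

open Matrix Vale.Agent.P286

noncomputable section

attribute [-instance] HahnSeries.powerSeriesAlgebra

/-- The properties of the form and of the basis of the Lie algebra. -/
structure Grp.Ok (G : Grp) : Prop where
  tr : ∀ i j, trace (G.β i * G.β j) = if i = j then 2 else 0
  lie : ∀ i, (G.β i)ᵀ * G.F + G.F * G.β i = 0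
  span : ∀ (R : Type) [CommRing R] (ι : ℂ →+* R) (m : Matrix (Fin G.N) (Fin G.N) R),
    mᵀ * G.F.map ι + G.F.map ι * m = 0 →
    m = ∑ i, (ι 2⁻¹ * trace ((G.β i).map ι * m)) • (G.β i).map ι
  det : G.F.det = 1

section
variable {R : Type} [CommRing R] (ι : ℂ →+* R)

theorem iota_half : ι 2⁻¹ * 2 = 1 := by
  rw [← map_ofNat ι 2, ← map_mul]; norm_num

theorem iota_I : ι Complex.I * ι Complex.I = -1 := by
  rw [← map_mul, Complex.I_mul_I, map_neg, map_one]

end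

open Complex in
/-- The Pauli matrices. -/
def b2 : Fin 3 → Matrix (Fin 2) (Fin 2) ℂ := ![!![0, 1; 1, 0], !![0, -I; I, 0], !![1, 0; 0, -1]]

/-- The symplectic form. -/
def F2 : Matrix (Fin 2) (Fin 2) ℂ := !![0, 1; -1, 0]

open Complex in
/-- The infinitesimal rotations. -/
def b3 : Fin 3 → Matrix (Fin 3) (Fin 3) ℂ := ![!![0, 0, 0; 0, 0, -I; 0, I, 0],
  !![0, 0, I; 0, 0, 0; -I, 0, 0], !![0, -I, 0; I, 0, 0; 0, 0, 0]]

theorem tr2 (i j : Fin 3) : trace (b2 i * b2 j) = if i = j then 2 else 0 := by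
  fin_cases i <;> fin_cases j <;>
    simp [b2, Matrix.trace_fin_two, Matrix.mul_apply, Fin.sum_univ_two] <;> norm_num

theorem lie2 (i : Fin 3) : (b2 i)ᵀ * F2 + F2 * b2 i = 0 := by
  fin_cases i <;> ext a b <;> fin_cases a <;> fin_cases b <;>
    simp [b2, F2, Matrix.mul_apply, Fin.sum_univ_two]

theorem span2 (R : Type) [CommRing R] (ι : ℂ →+* R) (m : Matrix (Fin 2) (Fin 2) R)
    (h : mᵀ * F2.map ι + F2.map ι * m = 0) :
    m = ∑ i, (ι 2⁻¹ * trace ((b2 i).map ι * m)) • (b2 i).map ι := by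
  have h2 := iota_half ι
  have hI := iota_I ι
  have h1 : m 0 0 + m 1 1 = 0 := by
    have := congrFun (congrFun h 0) 1
    simpa [F2, Matrix.mul_apply, Fin.sum_univ_two] using this
  rw [Fin.sum_univ_three]
  generalize ι 2⁻¹ = c at h2 ⊢
  ext a b
  fin_cases a <;> fin_cases b <;>
    simp [b2, Matrix.trace_fin_two, Matrix.mul_apply, Fin.sum_univ_two]
  · linear_combination (-(m 0 0)) * h2 + c * h1
  · linear_combination (-(m 0 1)) * h2 + c * (m 0 1 - m 1 0) * hI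
  · linear_combination (-(m 1 0)) * h2 + c * (m 1 0 - m 0 1) * hI
  · linear_combination (-(m 1 1)) * h2 + c * h1

theorem ok_SL2 : SL2.Ok := ⟨tr2, lie2, span2, (by simp [F2, Matrix.det_fin_two] : F2.det = 1)⟩

theorem tr3 (i j : Fin 3) : trace (b3 i * b3 j) = if i = j then 2 else 0 := by
  fin_cases i <;> fin_cases j <;>
    simp [b3, Matrix.trace_fin_three, Matrix.mul_apply, Fin.sum_univ_three] <;> norm_num

theorem lie3 (i : Fin 3) : (b3 i)ᵀ * 1 + 1 * b3 i = 0 := by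
  rw [Matrix.mul_one, Matrix.one_mul]
  fin_cases i <;> ext a b <;> fin_cases a <;> fin_cases b <;> simp [b3]

theorem span3 (R : Type) [CommRing R] (ι : ℂ →+* R) (m : Matrix (Fin 3) (Fin 3) R)
    (h : mᵀ * (1 : Matrix (Fin 3) (Fin 3) ℂ).map ι + (1 : Matrix (Fin 3) (Fin 3) ℂ).map ι * m = 0) :
    m = ∑ i, (ι 2⁻¹ * trace ((b3 i).map ι * m)) • (b3 i).map ι := by
  have h2 := iota_half ι
  have hI := iota_I ι
  have h1 : ∀ a b : Fin 3, m b a + m a b = 0 := fun a b => by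
    rw [Matrix.map_one _ (map_zero _) (map_one _), Matrix.mul_one, Matrix.one_mul] at h
    exact congrFun (congrFun h a) b
  rw [Fin.sum_univ_three]
  generalize ι 2⁻¹ = c at h2 ⊢
  ext a b
  fin_cases a <;> fin_cases b <;>
    simp [b3, Matrix.trace_fin_three, Matrix.mul_apply, Fin.sum_univ_three]
  · linear_combination (-(m 0 0)) * h2 + c * h1 0 0
  · linear_combination (-(m 0 1)) * h2 + c * (m 0 1 - m 1 0) * hI + c * h1 0 1
  · linear_combination (-(m 0 2)) * h2 + c * (m 0 2 - m 2 0) * hI + c * h1 0 2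
  · linear_combination (-(m 1 0)) * h2 + c * (m 1 0 - m 0 1) * hI + c * h1 0 1
  · linear_combination (-(m 1 1)) * h2 + c * h1 1 1
  · linear_combination (-(m 1 2)) * h2 + c * (m 1 2 - m 2 1) * hI + c * h1 1 2
  · linear_combination (-(m 2 0)) * h2 + c * (m 2 0 - m 0 2) * hI + c * h1 0 2
  · linear_combination (-(m 2 1)) * h2 + c * (m 2 1 - m 1 2) * hI + c * h1 1 2
  · linear_combination (-(m 2 2)) * h2 + c * h1 2 2

theorem ok_SO3 : SO3.Ok :=
  ⟨tr3, lie3, span3, (Matrix.det_one : (1 : Matrix (Fin 3) (Fin 3) ℂ).det = 1)⟩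

theorem Grp.ok_of {G : Grp} (h : G = SL2 ∨ G = SO3) : G.Ok := by
  rcases h with rfl | rfl
  · exact ok_SL2
  · exact ok_SO3

variable {A B : Type} [CommRing A] [Algebra ℂ A] [CommRing B] [Algebra ℂ B] {N : ℕ} {G : Grp}

/-- The constants. -/
def io (A : Type) [CommRing A] [Algebra ℂ A] : ℂ →+* Ls A :=
  (HahnSeries.C : A →+* Ls A).comp (algebraMap ℂ A)

theorem cst_io (m : Matrix (Fin N) (Fin N) ℂ) : cst A m = m.map (io A) := rfl

theorem cst_mul (m m' : Matrix (Fin N) (Fin N) ℂ) : cst A (m * m') = cst A m * cst A m' :=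
  Matrix.map_mul (f := io A)

theorem cst_transpose (m : Matrix (Fin N) (Fin N) ℂ) : (cst A m)ᵀ = cst A mᵀ := rfl

theorem cst_add (m m' : Matrix (Fin N) (Fin N) ℂ) : cst A (m + m') = cst A m + cst A m' :=
  Matrix.map_add _ (map_add (io A)) m m'

theorem cst_zero : cst A (0 : Matrix (Fin N) (Fin N) ℂ) = 0 := Matrix.map_zero _ (map_zero (io A))

theorem cst_one : cst A (1 : Matrix (Fin N) (Fin N) ℂ) = 1 :=
  Matrix.map_one _ (map_zero (io A)) (map_one (io A))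

theorem trace_cst (m : Matrix (Fin N) (Fin N) ℂ) : trace (cst A m) = io A (trace m) :=
  (AddMonoidHom.map_trace (io A) m).symm

theorem det_cst (m : Matrix (Fin N) (Fin N) ℂ) : (cst A m).det = io A m.det :=
  (RingHom.map_det (io A) m).symm

theorem smul_io (c : ℂ) (w : Ls A) : algebraMap ℂ A c • w = io A c * w := (C_mul _ w).symm

theorem lm_io (f : A →ₐ[ℂ] B) (c : ℂ) : lm (f : A →+* B) (io A c) = io B c :=
  (lm_C _ _).trans (congrArg HahnSeries.C (f.commutes c))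

theorem Grp.ad_apply (a : Matrix (Fin G.N) (Fin G.N) (Ls A)) (i j : Fin 3) :
    G.ad a i j = io A 2⁻¹ * trace (cst A (G.β i) * a * cst A (G.β j) * a.adjugate) :=
  smul_io _ _

theorem Grp.hat_add (ξ η : Fin 3 → Ls A) : G.hat (ξ + η) = G.hat ξ + G.hat η := by
  simp only [Grp.hat, Pi.add_apply, add_smul, Finset.sum_add_distrib]

theorem Grp.hat_smul (c : Ls A) (ξ : Fin 3 → Ls A) : G.hat (c • ξ) = c • G.hat ξ := by
  simp only [Grp.hat, Pi.smul_apply, smul_eq_mul, mul_smul, Finset.smul_sum]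

theorem Grp.hat_zero : G.hat (0 : Fin 3 → Ls A) = 0 := by
  simp only [Grp.hat, Pi.zero_apply, zero_smul, Finset.sum_const_zero]

theorem Grp.hat_sub (ξ η : Fin 3 → Ls A) : G.hat (ξ - η) = G.hat ξ - G.hat η := by
  simp only [Grp.hat, Pi.sub_apply, sub_smul, Finset.sum_sub_distrib]

theorem Grp.hat_neg (ξ : Fin 3 → Ls A) : G.hat (-ξ) = -G.hat ξ := by
  simp only [Grp.hat, Pi.neg_apply, neg_smul, Finset.sum_neg_distrib]

theorem Grp.hat_csmul_mulVec (c : A) (ξ : Fin 3 → Ls A) (m : Fin G.N → Ls A) :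
    G.hat (c • ξ) *ᵥ m = c • (G.hat ξ *ᵥ m) := by
  rw [csmul, Grp.hat_smul, smul_mulVec, ← csmul]

theorem Grp.hat_map (f : A →ₐ[ℂ] B) (ξ : Fin 3 → Ls A) :
    (G.hat ξ).map (lm (f : A →+* B)) = G.hat (lm (f : A →+* B) ∘ ξ) := by
  rw [Grp.hat, Grp.hat, ← RingHom.mapMatrix_apply, map_sum]
  refine Finset.sum_congr rfl fun i _ => ?_
  rw [← lm_cst f, RingHom.mapMatrix_apply]
  refine Matrix.ext fun a b => ?_
  exact map_mul (lm (f : A →+* B)) _ _

theorem IntM.hat {ξ : Fin 3 → Ls A} (h : ∀ i, Ord 0 (ξ i)) : IntM (G.hat ξ) := fun a b => by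
  rw [Grp.hat, Matrix.sum_apply]
  exact Ord.sum _ fun i _ => (h i).mul (IntM.cst _ a b)

theorem Grp.Ok.tr_hat (hG : G.Ok) (ξ : Fin 3 → Ls A) (i : Fin 3) :
    io A 2⁻¹ * trace (cst A (G.β i) * G.hat ξ) = ξ i := by
  rw [Grp.hat, Matrix.mul_sum, trace_sum, Finset.sum_eq_single i]
  · rw [Matrix.mul_smul, trace_smul, ← cst_mul, trace_cst, hG.tr, if_pos rfl, map_ofNat,
      smul_eq_mul]
    linear_combination ξ i * iota_half (io A)
  · intro j _ hj
    rw [Matrix.mul_smul, trace_smul, ← cst_mul, trace_cst, hG.tr, if_neg hj.symm, map_zero,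
      smul_zero]
  · intro h; exact absurd (Finset.mem_univ i) h

theorem Grp.Ok.hat_inj (hG : G.Ok) {ξ η : Fin 3 → Ls A} (h : G.hat ξ = G.hat η) : ξ = η :=
  funext fun i => by rw [← hG.tr_hat ξ i, h, hG.tr_hat]

theorem Grp.Ok.tr_hat_hat (hG : G.Ok) (ξ η : Fin 3 → Ls A) :
    io A 2⁻¹ * trace (G.hat ξ * G.hat η) = ξ ⬝ᵥ η := by
  conv_lhs => rw [Grp.hat, Matrix.sum_mul, trace_sum, Finset.mul_sum]
  refine Finset.sum_congr rfl fun i _ => ?_
  rw [Matrix.smul_mul, trace_smul, smul_eq_mul, mul_left_comm, hG.tr_hat]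

theorem Grp.Ok.hat_lie (hG : G.Ok) (ξ : Fin 3 → Ls A) :
    (G.hat ξ)ᵀ * cst A G.F + cst A G.F * G.hat ξ = 0 := by
  rw [Grp.hat, transpose_sum, Matrix.sum_mul, Matrix.mul_sum, ← Finset.sum_add_distrib]
  refine Finset.sum_eq_zero fun i _ => ?_
  rw [transpose_smul, Matrix.smul_mul, Matrix.mul_smul, ← smul_add, cst_transpose, ← cst_mul,
    ← cst_mul, ← cst_add, hG.lie, cst_zero, smul_zero]

theorem Grp.Ok.hat_of_lie (hG : G.Ok) {m : Matrix (Fin G.N) (Fin G.N) (Ls A)}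
    (h : mᵀ * cst A G.F + cst A G.F * m = 0) :
    G.hat (fun i => io A 2⁻¹ * trace (cst A (G.β i) * m)) = m :=
  (hG.span (Ls A) (io A) m h).symm

/-- The points of the group with values in Laurent series. -/
structure InG (G : Grp) (a : Matrix (Fin G.N) (Fin G.N) (Ls A)) : Prop where
  det : a.det = 1
  form : aᵀ * cst A G.F * a = cst A G.F

namespace InG

variable {a b : Matrix (Fin G.N) (Fin G.N) (Ls A)}

theorem mul_adj (h : InG G a) : a * a.adjugate = 1 := by rw [mul_adjugate, h.det, one_smul]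

theorem adj_mul (h : InG G a) : a.adjugate * a = 1 := by rw [adjugate_mul, h.det, one_smul]

theorem one : InG G (1 : Matrix (Fin G.N) (Fin G.N) (Ls A)) :=
  ⟨det_one, by rw [transpose_one, Matrix.one_mul, Matrix.mul_one]⟩

theorem mul (ha : InG G a) (hb : InG G b) : InG G (a * b) :=
  ⟨by rw [det_mul, ha.det, hb.det, one_mul], by
    rw [transpose_mul, Matrix.mul_assoc, Matrix.mul_assoc, ← Matrix.mul_assoc (cst _ _),
      ← Matrix.mul_assoc aᵀ, ← Matrix.mul_assoc aᵀ, ha.form, ← Matrix.mul_assoc, hb.form]⟩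

theorem form' (h : InG G a) : a.adjugateᵀ * cst A G.F = cst A G.F * a := by
  conv_lhs => rw [← h.form]
  rw [← Matrix.mul_assoc, ← Matrix.mul_assoc, ← transpose_mul, h.mul_adj, transpose_one,
    Matrix.one_mul]

theorem form'' (h : InG G a) : aᵀ * cst A G.F = cst A G.F * a.adjugate := by
  conv_rhs => rw [← h.form]
  rw [Matrix.mul_assoc, h.mul_adj, Matrix.mul_one]

theorem adj (h : InG G a) : InG G a.adjugate :=
  ⟨by rw [det_adjugate, h.det, one_pow], by rw [h.form', Matrix.mul_assoc, h.mul_adj, Matrix.mul_one]⟩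

theorem adj_adj (h : InG G a) : a.adjugate.adjugate = a := by
  rw [← Matrix.mul_one a.adjugate.adjugate, ← h.adj_mul, ← Matrix.mul_assoc, h.adj.adj_mul,
    Matrix.one_mul]

theorem adj_eq (h : InG G a) (e : a * b = 1) : a.adjugate = b := by
  rw [← Matrix.mul_one a.adjugate, ← e, ← Matrix.mul_assoc, h.adj_mul, Matrix.one_mul]

theorem map (h : InG G a) (f : A →ₐ[ℂ] B) : InG G (a.map (lm (f : A →+* B))) :=
  ⟨by rw [← RingHom.mapMatrix_apply, ← RingHom.map_det, h.det, map_one], by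
    have e := congrArg (fun m => m.map (lm (f : A →+* B))) h.form
    simpa only [Matrix.map_mul, lm_cst, transpose_map] using e⟩

theorem dot (h : InG G a) (m m' : Fin G.N → Ls A) :
    (a *ᵥ m) ⬝ᵥ cst A G.F *ᵥ (a *ᵥ m') = m ⬝ᵥ cst A G.F *ᵥ m' := by
  conv_rhs => rw [← h.form]
  rw [← mulVec_mulVec, ← mulVec_mulVec, dotProduct_mulVec m aᵀ, vecMul_transpose]

end InG

theorem adjugate_map (f : A →+* B) (a : Matrix (Fin N) (Fin N) (Ls A)) :
    (a.map (lm f)).adjugate = a.adjugate.map (lm f) :=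
  (RingHom.map_adjugate (lm f) a).symm

namespace Grp

variable {a b : Matrix (Fin G.N) (Fin G.N) (Ls A)}

theorem ad_mulVec (a : Matrix (Fin G.N) (Fin G.N) (Ls A)) (ξ : Fin 3 → Ls A) (i : Fin 3) :
    (G.ad a *ᵥ ξ) i = io A 2⁻¹ * trace (cst A (G.β i) * (a * G.hat ξ * a.adjugate)) := by
  rw [Grp.hat, Matrix.mul_sum, Matrix.sum_mul, Matrix.mul_sum, trace_sum, Finset.mul_sum]
  change ∑ j, G.ad a i j * ξ j = _
  refine Finset.sum_congr rfl fun j _ => ?_
  rw [Grp.ad_apply, Matrix.mul_smul, Matrix.smul_mul, Matrix.mul_smul, trace_smul, smul_eq_mul,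
    ← Matrix.mul_assoc, ← Matrix.mul_assoc]
  ring

theorem Ok.hat_ad (hG : G.Ok) (ha : InG G a) (ξ : Fin 3 → Ls A) :
    G.hat (G.ad a *ᵥ ξ) = a * G.hat ξ * a.adjugate := by
  rw [funext (ad_mulVec a ξ)]
  refine hG.hat_of_lie ?_
  have h := hG.hat_lie ξ
  rw [transpose_mul, transpose_mul, Matrix.mul_assoc, Matrix.mul_assoc, ha.form'',
    ← Matrix.mul_assoc (G.hat ξ)ᵀ, eq_neg_of_add_eq_zero_left h, Matrix.neg_mul, Matrix.mul_neg,
    ← Matrix.mul_assoc, ← Matrix.mul_assoc, ha.form', ← Matrix.mul_assoc, ← Matrix.mul_assoc,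
    neg_add_cancel]

theorem Ok.hat_ad_mul (hG : G.Ok) (ha : InG G a) (ξ : Fin 3 → Ls A) :
    G.hat (G.ad a *ᵥ ξ) * a = a * G.hat ξ := by
  rw [hG.hat_ad ha, Matrix.mul_assoc, ha.adj_mul, Matrix.mul_one]

theorem Ok.eq_ad (hG : G.Ok) (ha : InG G a) {ξ η : Fin 3 → Ls A}
    (h : G.hat η * a = a * G.hat ξ) : η = G.ad a *ᵥ ξ :=
  hG.hat_inj (by rw [hG.hat_ad ha, ← h, Matrix.mul_assoc, ha.mul_adj, Matrix.mul_one])

theorem mat_ext {m n : ℕ} {u w : Matrix (Fin m) (Fin n) (Ls A)} (h : ∀ ξ, u *ᵥ ξ = w *ᵥ ξ) :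
    u = w :=
  Matrix.toLin'.injective (LinearMap.ext fun ξ => by rw [toLin'_apply, toLin'_apply, h])

theorem Ok.ad_mul (hG : G.Ok) (ha : InG G a) (hb : InG G b) : G.ad (a * b) = G.ad a * G.ad b :=
  mat_ext fun ξ => hG.hat_inj (by
    rw [← mulVec_mulVec, hG.hat_ad (ha.mul hb), hG.hat_ad ha, hG.hat_ad hb, adjugate_mul_distrib]
    simp only [Matrix.mul_assoc])

theorem Ok.ad_one (hG : G.Ok) : G.ad (1 : Matrix (Fin G.N) (Fin G.N) (Ls A)) = 1 :=
  mat_ext fun ξ => hG.hat_inj (by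
    rw [hG.hat_ad InG.one, adjugate_one, Matrix.one_mul, Matrix.mul_one, one_mulVec])

theorem Ok.ad_mul_adj (hG : G.Ok) (ha : InG G a) : G.ad a * G.ad a.adjugate = 1 := by
  rw [← hG.ad_mul ha ha.adj, ha.mul_adj, hG.ad_one]

theorem Ok.ad_adj_mul (hG : G.Ok) (ha : InG G a) : G.ad a.adjugate * G.ad a = 1 := by
  rw [← hG.ad_mul ha.adj ha, ha.adj_mul, hG.ad_one]

theorem Ok.ad_dot (hG : G.Ok) (ha : InG G a) (ξ η : Fin 3 → Ls A) :
    (G.ad a *ᵥ ξ) ⬝ᵥ (G.ad a *ᵥ η) = ξ ⬝ᵥ η := by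
  rw [← hG.tr_hat_hat, ← hG.tr_hat_hat, hG.hat_ad ha, hG.hat_ad ha, Matrix.mul_assoc,
    ← Matrix.mul_assoc a.adjugate, ← Matrix.mul_assoc a.adjugate, ha.adj_mul, Matrix.one_mul,
    ← Matrix.mul_assoc, trace_mul_comm, ← Matrix.mul_assoc, ← Matrix.mul_assoc, ha.adj_mul,
    Matrix.one_mul]

theorem ad_map (f : A →ₐ[ℂ] B) (a : Matrix (Fin G.N) (Fin G.N) (Ls A)) :
    (G.ad a).map (lm (f : A →+* B)) = G.ad (a.map (lm (f : A →+* B))) := by
  refine Matrix.ext fun i j => ?_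
  rw [Matrix.map_apply, ad_apply, ad_apply, map_mul, lm_io, AddMonoidHom.map_trace,
    Matrix.map_mul, Matrix.map_mul, Matrix.map_mul, lm_cst, lm_cst, adjugate_map]

end Grp

theorem IntM.ad {a : Matrix (Fin G.N) (Fin G.N) (Ls A)} (ha : IntM a) : IntM (G.ad a) :=
  fun i j => by
  rw [Grp.ad_apply]
  exact (Ord.C _).mul ((((IntM.cst _).mul ha).mul (IntM.cst _)).mul ha.adjugate).trace

end

end Vale.Agent.P286E
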