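import Vale.Agent.P286EF.Adm
import Vale.Agent.P286EF.Grp
import Vale.Agent.P286ER.Reg

/-!
# Base change and gauge transformations of test objects; the cocycle of the canonical bundle
-/

set_option linter.all false

namespace Vale.Agent.P286E

open CategoryTheory Matrix Vale.Agent.P286
open Vale.Agent.P286ER (IsOb bcM isOb Good ev ys reg_iff reg_add reg_mul reg_C reg_zero reg_smul
  reg_lm reg_x reg_y reg_one)

noncomputable section

attribute [-instance] HahnSeries.powerSeriesAlgebra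

section BcM

variable {A B D : Type} [CommRing A] [CommRing B] [CommRing D] {N : ℕ}

theorem mem_bcM (f : A →+* B) {M : Submodule A (Fin N → Ls A)} {m : Fin N → Ls A} (h : m ∈ M) :
    lm f ∘ m ∈ bcM f M := Submodule.subset_span ⟨m, h, rfl⟩

theorem bcM_le {f : A →+* B} {M : Submodule A (Fin N → Ls A)} {P : Submodule B (Fin N → Ls B)} :
    bcM f M ≤ P ↔ ∀ m ∈ M, lm f ∘ m ∈ P := by
  refine ⟨fun h m hm => h (mem_bcM f hm), fun h => Submodule.span_le.2 ?_⟩
  rintro _ ⟨m, hm, rfl⟩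
  exact h m hm

theorem bcM_range (f : A →+* B) (v : ℕ × Fin N → Fin N → Ls A) :
    bcM f (LinearMap.range (lin v)) = LinearMap.range (lin fun p => lm f ∘ v p) := by
  refine le_antisymm (bcM_le.2 ?_) (range_lin_le.2 fun p => mem_bcM f (mem_range_lin v p))
  rintro _ ⟨z, rfl⟩
  exact ⟨_, (lm_lin f v z).symm⟩

theorem bcM_induction {f : A →+* B} {M : Submodule A (Fin N → Ls A)} {P : (Fin N → Ls B) → Prop}
    (h : ∀ m ∈ M, P (lm f ∘ m)) (h0 : P 0) (ha : ∀ u w, P u → P w → P (u + w))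
    (hs : ∀ (c : B) u, P u → P (c • u)) {u : Fin N → Ls B} (hu : u ∈ bcM f M) : P u := by
  induction hu using Submodule.span_induction with
  | mem x hx => obtain ⟨m, hm, rfl⟩ := hx; exact h m hm
  | zero => exact h0
  | add x y _ _ h1 h2 => exact ha _ _ h1 h2
  | smul c x _ h1 => exact hs _ _ h1

theorem lm_comp_smul (f : A →+* B) (w : Ls A) (m : Fin N → Ls A) :
    lm f ∘ (w • m) = lm f w • (lm f ∘ m) := funext fun i => map_mul (lm f) w (m i)

theorem lm_comp_csmul (f : A →+* B) (c : A) (m : Fin N → Ls A) :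
    lm f ∘ (c • m) = f c • (lm f ∘ m) := funext fun i => lm_smul f c (m i)

theorem lm_comp_add (f : A →+* B) (m m' : Fin N → Ls A) :
    lm f ∘ (m + m') = lm f ∘ m + lm f ∘ m' := funext fun i => map_add (lm f) (m i) (m' i)

theorem lm_comp_zero (f : A →+* B) : lm f ∘ (0 : Fin N → Ls A) = 0 :=
  funext fun _ => map_zero (lm f)

theorem bcM_bcM (f : A →+* B) (g : B →+* D) (M : Submodule A (Fin N → Ls A)) :
    bcM g (bcM f M) = bcM (g.comp f) M := by
  refine le_antisymm (bcM_le.2 fun u hu => ?_) (bcM_le.2 fun m hm => mem_bcM g (mem_bcM f hm))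
  refine bcM_induction (P := fun u => lm g ∘ u ∈ bcM (g.comp f) M) (fun m hm => mem_bcM _ hm)
    ?_ ?_ ?_ hu
  · rw [lm_comp_zero]; exact zero_mem _
  · intro u w h1 h2; rw [lm_comp_add]; exact add_mem h1 h2
  · intro c u h1; rw [lm_comp_csmul]; exact Submodule.smul_mem _ _ h1

theorem bcM_id (M : Submodule A (Fin N → Ls A)) : bcM (RingHom.id A) M = M :=
  le_antisymm (bcM_le.2 fun _ hm => hm) fun _ hm => mem_bcM (RingHom.id A) hm

theorem mulVec_csmul (a : Matrix (Fin N) (Fin N) (Ls A)) (c : A) (m : Fin N → Ls A) :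
    a *ᵥ (c • m) = c • (a *ᵥ m) := (act a).map_smul c m

theorem smul_csmul (w : Ls A) (c : A) (m : Fin N → Ls A) : w • (c • m) = c • (w • m) := by
  rw [csmul, csmul, smul_comm]

/-- The elements of the ring of Laurent series which preserve a lattice. -/
def stabR (M : Submodule A (Fin N → Ls A)) : Subring (Ls A) where
  carrier := {w | ∀ m ∈ M, w • m ∈ M}
  mul_mem' hu hw m hm := by rw [mul_smul]; exact hu _ (hw m hm)
  one_mem' m hm := by rw [one_smul]; exact hm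
  add_mem' hu hw m hm := by rw [add_smul]; exact add_mem (hu m hm) (hw m hm)
  zero_mem' m _ := by rw [zero_smul]; exact zero_mem _
  neg_mem' hu m hm := by rw [neg_smul]; exact neg_mem (hu m hm)

theorem C_mem_stabR (M : Submodule A (Fin N → Ls A)) (c : A) : HahnSeries.C c ∈ stabR M :=
  fun m hm => by rw [← csmul]; exact M.smul_mem c hm

theorem ev_mem_stabR {M : Submodule A (Fin N → Ls A)} (hx : xs A ∈ stabR M) (p : Polynomial A) :
    ev A p ∈ stabR M := by
  induction p using Polynomial.induction_on with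
  | C a => rw [P286ER.ev_C]; exact C_mem_stabR M a
  | add p q hp hq => rw [map_add]; exact add_mem hp hq
  | monomial n a h => rw [pow_succ, ← mul_assoc, map_mul, P286ER.ev_X]; exact mul_mem h hx

/-- A lattice which is stable under `x` and `y` is stable under all functions. -/
theorem reg_of_xy [Algebra ℂ A] {E : Ell} {M : Submodule A (Fin N → Ls A)}
    (hx : ∀ m ∈ M, xs A • m ∈ M) (hy : ∀ m ∈ M, ys E A • m ∈ M) :
    ∀ w : Ls A, E.Reg w → ∀ m ∈ M, w • m ∈ M := fun w hw => by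
  obtain ⟨p, q, rfl⟩ := reg_iff.1 hw
  exact add_mem (ev_mem_stabR hx p) (mul_mem (ev_mem_stabR hx q) (show ys E A ∈ stabR M from hy))

theorem lm_mem_stabR (f : A →+* B) {M : Submodule A (Fin N → Ls A)} {w : Ls A}
    (h : ∀ m ∈ M, w • m ∈ M) : ∀ m ∈ bcM f M, lm f w • m ∈ bcM f M := fun m hm => by
  refine bcM_induction (P := fun u => lm f w • u ∈ bcM f M) (fun m hm => ?_) ?_ ?_ ?_ hm
  · rw [← lm_comp_smul]; exact mem_bcM f (h m hm)
  · rw [smul_zero]; exact zero_mem _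
  · intro u u' h1 h2; rw [smul_add]; exact add_mem h1 h2
  · intro c u h1; rw [smul_csmul]; exact Submodule.smul_mem _ _ h1

theorem mulVec_mem_bcM (f : A →+* B) {M : Submodule A (Fin N → Ls A)}
    {P : Submodule B (Fin N → Ls B)} {a : Matrix (Fin N) (Fin N) (Ls B)}
    (h : ∀ m ∈ M, a *ᵥ (lm f ∘ m) ∈ P) : ∀ m ∈ bcM f M, a *ᵥ m ∈ P :=
  fun _ hm => (bcM_le (P := P.comap (act a))).2 h hm

/-- Determinants of vectors in a span. -/
theorem det_mem_of_span (P : Submodule A (Ls A)) (S : Set (Fin N → Ls A))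
    (h : ∀ m : Fin N → Fin N → Ls A, (∀ i, m i ∈ S) → (of m).det ∈ P)
    (m : Fin N → Fin N → Ls A) (hm : ∀ i, m i ∈ Submodule.span A S) : (of m).det ∈ P := by
  have key : ∀ s : Finset (Fin N), ∀ m : Fin N → Fin N → Ls A,
      (∀ i, m i ∈ Submodule.span A S) → (∀ i, i ∉ s → m i ∈ S) → (of m).det ∈ P := by
    intro s
    induction s using Finset.induction_on with
    | empty => exact fun m _ h2 => h m fun i => h2 i (Finset.notMem_empty i)
    | insert j s hj ih =>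
      intro m h1 h2
      have h3 : ∀ u ∈ Submodule.span A S, (updateRow (of m) j u).det ∈ P := by
        intro u hu
        induction hu using Submodule.span_induction with
        | mem x hx =>
          refine ih (Function.update m j x) (fun i => ?_) fun i hi => ?_
          · by_cases e : i = j
            · rw [e, Function.update_self]; exact Submodule.subset_span hx
            · rw [Function.update_of_ne e]; exact h1 i
          · by_cases e : i = j
            · rw [e, Function.update_self]; exact hx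
            · rw [Function.update_of_ne e]
              exact h2 i fun h' => (Finset.mem_insert.1 h').elim e hi
        | zero =>
          rw [det_eq_zero_of_row_eq_zero j fun k => by rw [updateRow_self]; rfl]
          exact zero_mem _
        | add x y _ _ hx hy => rw [det_updateRow_add]; exact add_mem hx hy
        | smul c x _ hx => rw [csmul, det_updateRow_smul, C_mul]; exact P.smul_mem c hx
      have h4 := h3 (m j) (h1 j)
      rwa [show m j = (of m) j from rfl, updateRow_eq_self] at h4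
  exact key Finset.univ m hm fun i hi => absurd (Finset.mem_univ i) hi

end BcM

section IsOb

variable {A B : Type} [CommRing A] [Algebra ℂ A] [CommRing B] [Algebra ℂ B] {E : Ell} {G : Grp}

/-- The functions on `E_A - o`, as a submodule. -/
def regS (E : Ell) (A : Type) [CommRing A] [Algebra ℂ A] : Submodule A (Ls A) where
  carrier := {w | E.Reg w}
  add_mem' := reg_add
  zero_mem' := reg_zero
  smul_mem' c _ h := reg_smul c h

theorem lm_ys (f : A →ₐ[ℂ] B) : lm (f : A →+* B) (ys E A) = ys E B := by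
  rw [ys, ys, lm_lm, AlgHom.comp_algebraMap]

theorem lm_form (f : A →ₐ[ℂ] B) {N : ℕ} (F : Matrix (Fin N) (Fin N) ℂ) (m m' : Fin N → Ls A) :
    lm (f : A →+* B) (m ⬝ᵥ cst A F *ᵥ m') =
      (lm (f : A →+* B) ∘ m) ⬝ᵥ cst B F *ᵥ (lm (f : A →+* B) ∘ m') := by
  rw [RingHom.map_dotProduct, lm_mulVec, lm_cst]

theorem csmul_dot {N : ℕ} (c : A) (m m' : Fin N → Ls A) : (c • m) ⬝ᵥ m' = c • (m ⬝ᵥ m') := by
  rw [csmul, smul_dotProduct, smul_eq_mul, C_mul]

theorem dot_csmul {N : ℕ} (c : A) (m m' : Fin N → Ls A) : m ⬝ᵥ (c • m') = c • (m ⬝ᵥ m') := by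
  rw [csmul, dotProduct_smul, smul_eq_mul, C_mul]

/-- The elements of the Lie algebra which preserve a lattice. -/
def lieS (G : Grp) (M : Submodule A (Fin G.N → Ls A)) : Submodule A (Fin 3 → Ls A) where
  carrier := {ξ | ∀ m ∈ M, G.hat ξ *ᵥ m ∈ M}
  add_mem' hu hw m hm := by rw [Grp.hat_add, add_mulVec]; exact add_mem (hu m hm) (hw m hm)
  zero_mem' m _ := by rw [Grp.hat_zero, zero_mulVec]; exact zero_mem _
  smul_mem' c _ h m hm := by rw [Grp.hat_csmul_mulVec]; exact M.smul_mem c (h m hm)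

variable {M : Submodule A (Fin G.N → Ls A)} {T : ℕ × Fin 3 → Fin 3 → Ls A}

theorem _root_.Vale.Agent.P286ER.IsOb.le_lieS (h : IsOb E G M T) :
    LinearMap.range (lin T) ≤ lieS G M := range_lin_le.2 h.lie

/-- Base change. -/
theorem _root_.Vale.Agent.P286ER.IsOb.bc (h : IsOb E G M T) (f : A →ₐ[ℂ] B) :
    IsOb E G (bcM (f : A →+* B) M) (fun p => lm (f : A →+* B) ∘ T p) where
  adm := by
    obtain ⟨v, hv, rfl⟩ := h.adm
    exact ⟨_, hv.bc _, (bcM_range _ v).symm⟩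
  reg := reg_of_xy (by rw [← lm_xs (f : A →+* B)]; exact lm_mem_stabR _ (h.reg _ reg_x))
    (by rw [← lm_ys f]; exact lm_mem_stabR _ (h.reg _ reg_y))
  form m hm m' hm' := by
    refine bcM_induction (P := fun u => E.Reg (u ⬝ᵥ cst B G.F *ᵥ m')) (fun m hm => ?_) ?_ ?_ ?_ hm
    · refine bcM_induction (P := fun u => E.Reg ((lm (f : A →+* B) ∘ m) ⬝ᵥ cst B G.F *ᵥ u))
        (fun m' hm' => ?_) ?_ ?_ ?_ hm'
      · rw [← lm_form]; exact reg_lm f (h.form m hm m' hm')
      · rw [mulVec_zero, dotProduct_zero]; exact reg_zero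
      · intro u w h1 h2; rw [mulVec_add, dotProduct_add]; exact reg_add h1 h2
      · intro c u h1; rw [mulVec_csmul, dot_csmul]; exact reg_smul c h1
    · rw [zero_dotProduct]; exact reg_zero
    · intro u w h1 h2; rw [add_dotProduct]; exact reg_add h1 h2
    · intro c u h1; rw [csmul_dot]; exact reg_smul c h1
  vol m hm := by
    refine det_mem_of_span (regS E B) _ (fun m hm => ?_) m hm
    choose n hn e using hm
    have e2 : of m = (of n).map (lm (f : A →+* B)) := funext fun i => (e i).symm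
    rw [e2, ← RingHom.mapMatrix_apply, ← RingHom.map_det]
    exact reg_lm f (h.vol n hn)
  admT := h.admT.bc _
  lie p := mulVec_mem_bcM _ fun m hm => by
    rw [← Grp.hat_map, ← lm_mulVec]
    exact mem_bcM _ (h.lie p m hm)

/-- Gauge transformation. -/
theorem _root_.Vale.Agent.P286ER.IsOb.gauge (h : IsOb E G M T) (hG : G.Ok)
    {a : Matrix (Fin G.N) (Fin G.N) (Ls A)} (ha : InG G a) (hi : IntM a) :
    IsOb E G (M.map (act a)) (gau (G.ad a) (G.ad a.adjugate) T) where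
  adm := by
    obtain ⟨v, hv, rfl⟩ := h.adm
    exact ⟨_, hv.gau hi hi.adjugate ha.mul_adj ha.adj_mul, range_gau hi hi.adjugate ha.adj_mul v⟩
  reg w hw := by
    rintro _ ⟨m, hm, rfl⟩
    exact ⟨w • m, h.reg w hw m hm, mulVec_smul a w m⟩
  form := by
    rintro _ ⟨m, hm, rfl⟩ _ ⟨m', hm', rfl⟩
    rw [act_apply, act_apply, ha.dot]
    exact h.form m hm m' hm'
  vol m hm := by
    choose n hn e using hm
    have e2 : of m = of n * aᵀ := by
      refine Matrix.ext fun i j => ?_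
      rw [of_apply, ← e i, act_apply, Matrix.mul_apply]
      change ∑ k, a j k * n i k = _
      exact Finset.sum_congr rfl fun k _ => mul_comm (a j k) (n i k)
    rw [e2, det_mul, det_transpose, ha.det, mul_one]
    exact h.vol n hn
  admT := h.admT.gau hi.ad hi.adjugate.ad (hG.ad_mul_adj ha) (hG.ad_adj_mul ha)
  lie p := by
    rintro _ ⟨m, hm, rfl⟩
    rw [gau_apply, act_apply, mulVec_mulVec, hG.hat_ad_mul ha, ← mulVec_mulVec]
    exact ⟨_, h.le_lieS ⟨_, rfl⟩ m hm, rfl⟩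

/-- Another admissible basis of the adjoint lattice. -/
theorem _root_.Vale.Agent.P286ER.IsOb.rebase (h : IsOb E G M T) {T' : ℕ × Fin 3 → Fin 3 → Ls A}
    (h1 : Adm T') (h2 : ∀ p, T' p ∈ lieS G M) : IsOb E G M T' :=
  ⟨h.adm, h.reg, h.form, h.vol, h1, h2⟩

end IsOb

variable {E : Ell} {G : Grp}

/-- The test object defined by a lattice. -/
def Ob.of (A : SmAlg) {M : Submodule A.R (Fin G.N → Ls A.R)} {T : ℕ × Fin 3 → Fin 3 → Ls A.R}
    (h : IsOb E G M T) : Ob E G := ⟨A, M, h.adm, h.reg, h.form, h.vol, T, h.admT, h.lie⟩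

namespace Mo

variable {X Y Z : Ob E G}

theorem inG (φ : Mo X Y) : InG G φ.a := ⟨φ.det, φ.form⟩

theorem intM (φ : Mo X Y) : IntM φ.a := φ.int

/-- The transported basis of the adjoint lattice. -/
def tT (φ : Mo X Y) : ℕ × Fin 3 → Fin 3 → Ls Y.A.R :=
  gau (G.ad φ.a) (G.ad φ.a.adjugate) fun p => lm φ.f.r ∘ X.T p

theorem isOb_tr (hG : G.Ok) (φ : Mo X Y) : IsOb E G ((bcM φ.f.r X.M).map (act φ.a)) φ.tT :=
  ((isOb X).bc φ.f).gauge hG φ.inG φ.intM

theorem adm_tT (hG : G.Ok) (φ : Mo X Y) : Adm φ.tT := (φ.isOb_tr hG).admT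

theorem dl_eq (φ : Mo X Y) : φ.dl = Ring.inverse (fdet (chg Y.T φ.tT)) := by
  rw [chg, tT, lin_gau]
  rfl

theorem ad_mem (hG : G.Ok) (φ : Mo X Y) (z : Qm 3 X.A.R) :
    G.ad φ.a *ᵥ (lm φ.f.r ∘ lin X.T z) ∈ LinearMap.range (lin Y.T) := by
  obtain ⟨w, hw⟩ := φ.lie z
  rw [Grp.hat_map] at hw
  exact ⟨w, hG.eq_ad φ.inG hw⟩

theorem range_tT (hG : G.Ok) (φ : Mo X Y) : LinearMap.range (lin φ.tT) =
    (bcM φ.f.r (LinearMap.range (lin X.T))).map (act (G.ad φ.a)) := by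
  rw [tT, range_gau φ.intM.ad φ.intM.adjugate.ad (hG.ad_adj_mul φ.inG), bcM_range]

theorem tT_le (hG : G.Ok) (φ : Mo X Y) :
    LinearMap.range (lin φ.tT) ≤ LinearMap.range (lin Y.T) := by
  rw [range_tT hG]
  rintro _ ⟨m, hm, rfl⟩
  refine mulVec_mem_bcM _ ?_ m hm
  rintro _ ⟨z, rfl⟩
  exact φ.ad_mem hG z

/-- The adjoint lattice of the target is the transported one. -/
theorem range_T (hG : G.Ok) (φ : Mo X Y) :
    LinearMap.range (lin φ.tT) = LinearMap.range (lin Y.T) :=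
  (φ.adm_tT hG).range_eq Y.admT (φ.tT_le hG)

/-- The lattice of the target is the transported one. -/
theorem M_eq (hG : G.Ok) (φ : Mo X Y) : (bcM φ.f.r X.M).map (act φ.a) = Y.M := by
  obtain ⟨v, hv, e⟩ := (φ.isOb_tr hG).adm
  obtain ⟨w, hw, e'⟩ := Y.adm
  rw [← e, ← e']
  refine hv.range_eq hw ?_
  rw [e, e']
  rintro _ ⟨m, hm, rfl⟩
  exact mulVec_mem_bcM _ φ.lat m hm

theorem unit_chg (hG : G.Ok) (φ : Mo X Y) : IsUnit (fdet (chg Y.T φ.tT)) :=
  (φ.adm_tT hG).isUnit_fdet_chg Y.admT (φ.tT_le hG)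

theorem dl_mul (hG : G.Ok) (φ : Mo X Y) : φ.dl * fdet (chg Y.T φ.tT) = 1 := by
  rw [dl_eq]
  exact Ring.inverse_mul_cancel _ (φ.unit_chg hG)

theorem dl_unit (hG : G.Ok) (φ : Mo X Y) : IsUnit φ.dl := IsUnit.of_mul_eq_one _ (φ.dl_mul hG)

/-- The unit `δ` expresses the basis of the target in the transported basis. -/
theorem dl_eq_chg (hG : G.Ok) (φ : Mo X Y) : φ.dl = fdet (chg φ.tT Y.T) := by
  have h1 := (φ.adm_tT hG).chg_mul (φ.range_T hG).ge Y.T
  rw [Y.admT.chg_self] at h1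
  have h2 := fdet_mul ((φ.adm_tT hG).finRank_chg Y.admT (φ.tT_le hG))
    (Y.admT.finRank_chg (φ.adm_tT hG) (φ.range_T hG).ge)
  rw [h1, fdet_one] at h2
  rw [← mul_one φ.dl, h2, ← mul_assoc, φ.dl_mul hG, one_mul]

theorem dl_of_tT (φ : Mo X Y) (h : φ.tT = Y.T) : φ.dl = 1 := by
  rw [dl_eq, h, Y.admT.chg_self, fdet_one, Ring.inverse_one]

theorem tT_of_one (hG : G.Ok) (φ : Mo X Y) (h : φ.a = 1) : φ.tT = fun p => lm φ.f.r ∘ X.T p := by
  rw [tT, h, adjugate_one, hG.ad_one, gau_one]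

theorem dl_one (hG : G.Ok) (X : Ob E G) : (Mo.one X).dl = 1 :=
  dl_of_tT _ (tT_of_one hG _ rfl)

theorem tT_comp (hG : G.Ok) (φ : Mo X Y) (ψ : Mo Y Z) : (φ.comp ψ).tT =
    gau (G.ad ψ.a) (G.ad ψ.a.adjugate) fun p => lm ψ.f.r ∘ φ.tT p := by
  have h1 := φ.inG.map ψ.f
  rw [tT, tT, lm_gau, Grp.ad_map, Grp.ad_map, ← adjugate_map,
    gau_gau (φ.intM.map _).adjugate.ad, comp_a, adjugate_mul_distrib, hG.ad_mul ψ.inG h1,
    hG.ad_mul h1.adj ψ.inG.adj]
  rfl

theorem fdet_comp (hG : G.Ok) (φ : Mo X Y) (ψ : Mo Y Z) : fdet (chg Z.T (φ.comp ψ).tT) =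
    fdet (chg Z.T ψ.tT) * ψ.f (fdet (chg Y.T φ.tT)) := by
  have h1 : LinearMap.range (lin (φ.comp ψ).tT) ≤ LinearMap.range (lin ψ.tT) := by
    rw [range_T hG, range_T hG]
  have h2 : LinearMap.range (lin fun p => lm ψ.f.r ∘ φ.tT p) ≤
      LinearMap.range (lin fun p => lm ψ.f.r ∘ Y.T p) := by
    rw [← bcM_range, ← bcM_range, range_T hG]
  have h3 := (φ.adm_tT hG).finRank_chg Y.admT (φ.tT_le hG)
  have h4 : fdet (chg ψ.tT (φ.comp ψ).tT) = ψ.f (fdet (chg Y.T φ.tT)) := by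
    rw [tT_comp hG, tT, (Y.admT.bc _).gau_chg h2 ψ.intM.ad ψ.intM.adjugate.ad
      (hG.ad_mul_adj ψ.inG) (hG.ad_adj_mul ψ.inG), Y.admT.bc_chg (φ.tT_le hG)]
    exact (fdet_conj (paU ψ.intM.ad ψ.intM.adjugate.ad (hG.ad_mul_adj ψ.inG)
      (hG.ad_adj_mul ψ.inG)) (h3.bc_sub_one _)).trans (fdet_bc _ h3)
  rw [← (ψ.adm_tT hG).chg_mul h1, fdet_mul ((ψ.adm_tT hG).finRank_chg Z.admT (ψ.tT_le hG))
    (((φ.comp ψ).adm_tT hG).finRank_chg (ψ.adm_tT hG) h1), h4]

theorem dl_comp (hG : G.Ok) (φ : Mo X Y) (ψ : Mo Y Z) : (φ.comp ψ).dl = ψ.dl * ψ.f φ.dl := by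
  have h1 := (φ.comp ψ).dl_mul hG
  have h2 := ψ.dl_mul hG
  have h3 := congrArg ψ.f (φ.dl_mul hG)
  rw [map_mul, map_one] at h3
  rw [fdet_comp hG] at h1
  linear_combination (ψ.dl * ψ.f φ.dl) * h1 -
    ((φ.comp ψ).dl * ψ.f φ.dl * ψ.f (fdet (chg Y.T φ.tT))) * h2 - (φ.comp ψ).dl * h3

/-- A constructor for morphisms. -/
def mk' (hG : G.Ok) (f : X.A.Hm Y.A) (a : Matrix (Fin G.N) (Fin G.N) (Ls Y.A.R)) (hi : IntM a)
    (ha : InG G a) (h1 : ∀ m ∈ X.M, a *ᵥ (lm f.r ∘ m) ∈ Y.M)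
    (h2 : ∀ p, G.ad a *ᵥ (lm f.r ∘ X.T p) ∈ LinearMap.range (lin Y.T)) : Mo X Y where
  f := f
  a := a
  int := hi
  det := ha.det
  form := ha.form
  lat := h1
  lie z := by
    have h3 : LinearMap.range (lin fun p => lm f.r ∘ X.T p) ≤
        (LinearMap.range (lin Y.T)).comap (act (G.ad a)) := range_lin_le.2 h2
    obtain ⟨w, hw⟩ := h3 ⟨_, (lm_lin f.r X.T z).symm⟩
    exact ⟨w, by rw [hw, act_apply, hG.hat_ad_mul ha, Grp.hat_map]⟩

end Mo

theorem good_DE (hG : G.Ok) (c : ℂ) : Good (DE E G c) where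
  f_id _ := rfl
  f_comp _ _ := rfl
  unit φ := Mo.dl_unit hG φ
  dl_comp φ ψ := Mo.dl_comp hG φ ψ

/-! ### Base change, gauge transformations, inverses -/

/-- The base change of a test object. -/
def Ob.bc (X : Ob E G) (B : SmAlg) (f : X.A.Hm B) : Ob E G := Ob.of B ((isOb X).bc f)

/-- The morphism to the base change. -/
def Ob.toBc (X : Ob E G) (B : SmAlg) (f : X.A.Hm B) : Mo X (X.bc B f) where
  f := f
  a := 1
  int := IntM.one
  det := det_one
  form := InG.one.form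
  lat m hm := by rw [one_mulVec]; exact mem_bcM _ hm
  lie z := ⟨z.mapRange f.r (map_zero _), by
    have h := Grp.hat_map (G := G) f (lin X.T z)
    rw [lm_lin] at h
    exact (Matrix.mul_one _).trans (h.symm.trans (Matrix.one_mul _).symm)⟩

theorem Ob.dl_toBc (hG : G.Ok) (X : Ob E G) (B : SmAlg) (f : X.A.Hm B) : (X.toBc B f).dl = 1 :=
  Mo.dl_of_tT _ (Mo.tT_of_one hG _ rfl)

/-- The morphism from the base change defined by a morphism. -/
def Mo.lift {X Y : Ob E G} (hG : G.Ok) (φ : Mo X Y) {B : SmAlg} (f : X.A.Hm B) (g : B.Hm Y.A)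
    (e : g.comp f = φ.f) : Mo (X.bc B f) Y :=
  Mo.mk' (X := X.bc B f) hG g φ.a φ.intM φ.inG
    (fun m hm => mulVec_mem_bcM φ.f.r φ.lat _ (by
      rw [← e]
      exact (bcM_bcM f.r g.r X.M).le (mem_bcM g.r hm)))
    (fun p => by
      have h := φ.ad_mem hG (Finsupp.single p 1)
      rw [lin_single, ← e] at h
      exact h)

theorem Mo.toBc_lift {X Y : Ob E G} (hG : G.Ok) (φ : Mo X Y) {B : SmAlg} (f : X.A.Hm B)
    (g : B.Hm Y.A) (e : g.comp f = φ.f) : (X.toBc B f).comp (φ.lift hG f g e) = φ :=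
  Mo.ext e ((congrArg (φ.a * ·) (Matrix.map_one _ (map_zero _) (map_one _))).trans
    (Matrix.mul_one _))

/-- The gauge transform of a test object. -/
def Ob.gauge (X : Ob E G) (hG : G.Ok) {a : Matrix (Fin G.N) (Fin G.N) (Ls X.A.R)} (ha : InG G a)
    (hi : IntM a) : Ob E G := Ob.of X.A ((isOb X).gauge hG ha hi)

/-- The morphism to the gauge transform. -/
def Ob.toGauge (X : Ob E G) (hG : G.Ok) {a : Matrix (Fin G.N) (Fin G.N) (Ls X.A.R)}
    (ha : InG G a) (hi : IntM a) : Mo X (X.gauge hG ha hi) :=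
  Mo.mk' (Y := X.gauge hG ha hi) hG (SmAlg.Hm.id X.A) a hi ha (fun m hm => ⟨m, hm, rfl⟩)
    (fun p => (range_gau hi.ad hi.adjugate.ad (hG.ad_adj_mul ha) X.T).ge
      ⟨_, mem_range_lin X.T p, rfl⟩)

theorem Ob.dl_toGauge (X : Ob E G) (hG : G.Ok) {a : Matrix (Fin G.N) (Fin G.N) (Ls X.A.R)}
    (ha : InG G a) (hi : IntM a) : (X.toGauge hG ha hi).dl = 1 := Mo.dl_of_tT _ rfl

/-- The inverse of a morphism which is an isomorphism on the algebras. -/
def Mo.inv {X Y : Ob E G} (hG : G.Ok) (φ : Mo X Y) (g : Y.A.Hm X.A)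
    (e : g.comp φ.f = SmAlg.Hm.id X.A) : Mo Y X :=
  Mo.mk' hG g (φ.a.adjugate.map (lm g.r)) (φ.intM.adjugate.map _) (φ.inG.adj.map g)
    (fun m hm => by
      rw [← φ.M_eq hG] at hm
      obtain ⟨n, hn, rfl⟩ := hm
      rw [← lm_mulVec, act_apply, mulVec_mulVec, φ.inG.adj_mul, one_mulVec]
      have h := (bcM_bcM φ.f.r g.r X.M).le (mem_bcM g.r hn)
      have e' : g.r.comp φ.f.r = RingHom.id _ := congrArg (fun u : X.A.Hm X.A => u.r) e
      rwa [e', bcM_id] at h)
    (fun p => by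
      have hm := mem_range_lin Y.T p
      rw [← φ.range_T hG, φ.range_tT hG] at hm
      obtain ⟨n, hn, e2⟩ := hm
      rw [← e2, ← Grp.ad_map, ← lm_mulVec, act_apply, mulVec_mulVec, hG.ad_adj_mul φ.inG,
        one_mulVec]
      have h := (bcM_bcM φ.f.r g.r _).le (mem_bcM g.r hn)
      have e' : g.r.comp φ.f.r = RingHom.id _ := congrArg (fun u : X.A.Hm X.A => u.r) e
      rwa [e', bcM_id] at h)

theorem Mo.comp_inv {X Y : Ob E G} (hG : G.Ok) (φ : Mo X Y) (g : Y.A.Hm X.A)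
    (e : g.comp φ.f = SmAlg.Hm.id X.A) : φ.comp (φ.inv hG g e) = Mo.one X :=
  Mo.ext e (by
    change φ.a.adjugate.map (lm g.r) * φ.a.map (lm g.r) = 1
    rw [← Matrix.map_mul, φ.inG.adj_mul]
    exact Matrix.map_one _ (map_zero _) (map_one _))

theorem Mo.inv_comp {X Y : Ob E G} (hG : G.Ok) (φ : Mo X Y) (g : Y.A.Hm X.A)
    (e : g.comp φ.f = SmAlg.Hm.id X.A) (e' : φ.f.comp g = SmAlg.Hm.id Y.A) :
    (φ.inv hG g e).comp φ = Mo.one Y :=
  Mo.ext e' (by
    change φ.a * (φ.a.adjugate.map (lm g.r)).map (lm φ.f.r) = 1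
    have h : (φ.a.adjugate.map (lm g.r)).map (lm φ.f.r) =
        φ.a.adjugate.map (lm (φ.f.comp g).r) := rfl
    rw [h, e']
    exact φ.inG.mul_adj)

end

end Vale.Agent.P286E
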