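import Vale.Agent.P286EB.IF
import Vale.Agent.P286EF.Adm

/-!
# Admissible bases from bases of the spaces of sections; the Pluecker property
-/

set_option linter.all false

namespace Vale.Agent.P286E

open Matrix Vale.Agent.P286 Vale.Agent.P286EB Vale.Agent.P286EN
open Vale.Agent.P286ER (On)

noncomputable section

attribute [-instance] HahnSeries.powerSeriesAlgebra

variable {A : Type} [CommRing A] {N : ℕ}

section Lvl

variable {κ : Type} [Fintype κ] [DecidableEq κ] (ι : κ → ℕ × Fin N)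

/-- The inclusion of finitely many coordinates. -/
def lvk (A : Type) [CommRing A] : (κ → A) →ₗ[A] Qm N A :=
  Fintype.linearCombination A fun q => Finsupp.single (ι q) 1

/-- The projection to finitely many coordinates. -/
def prk (A : Type) [CommRing A] : Qm N A →ₗ[A] (κ → A) :=
  LinearMap.pi fun q => Finsupp.lapply (ι q)

/-- The projection to the other coordinates. -/
def hik (A : Type) [CommRing A] : Qm N A →ₗ[A] Qm N A := LinearMap.id - lvk ι A ∘ₗ prk ι A

theorem hik_apply (z : Qm N A) : hik ι A z = z - lvk ι A (prk ι A z) := rfl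

theorem lvk_single (q : κ) : lvk ι A (Pi.single q 1) = Finsupp.single (ι q) 1 := by
  rw [lvk, Fintype.linearCombination_apply_single, one_smul]

variable {ι}

theorem lvk_out (u : κ → A) {p : ℕ × Fin N} (hp : p ∉ Set.range ι) : lvk ι A u p = 0 := by
  rw [lvk, Fintype.linearCombination_apply, Finsupp.finsetSum_apply]
  refine Finset.sum_eq_zero fun j _ => ?_
  rw [Finsupp.smul_apply, Finsupp.single_eq_of_ne fun h => hp ⟨j, h.symm⟩, smul_zero]

theorem lvk_in (hι : Function.Injective ι) (u : κ → A) (q : κ) : lvk ι A u (ι q) = u q := by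
  rw [lvk, Fintype.linearCombination_apply, Finsupp.finsetSum_apply, Finset.sum_eq_single q]
  · simp
  · intro j _ hj
    rw [Finsupp.smul_apply, Finsupp.single_eq_of_ne fun h => hj (hι h).symm, smul_zero]
  · simp

theorem hik_in (hι : Function.Injective ι) (z : Qm N A) (q : κ) : hik ι A z (ι q) = 0 := by
  rw [hik_apply, Finsupp.sub_apply, lvk_in hι]
  exact sub_self _

theorem hik_out (z : Qm N A) {p : ℕ × Fin N} (hp : p ∉ Set.range ι) : hik ι A z p = z p := by
  rw [hik_apply, Finsupp.sub_apply, lvk_out _ hp, sub_zero]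

theorem hik_congr (hι : Function.Injective ι) {z w : Qm N A}
    (h : ∀ p, p ∉ Set.range ι → z p = w p) : hik ι A z = hik ι A w := by
  ext p
  by_cases hp : p ∈ Set.range ι
  · obtain ⟨q, rfl⟩ := hp
    rw [hik_in hι, hik_in hι]
  · rw [hik_out _ hp, hik_out _ hp, h p hp]

/-- A family adapted to the finite set of coordinates. -/
structure Lvl (ι : κ → ℕ × Fin N) (b : (κ → A) →ₗ[A] (Fin N → Ls A))
    (v : ℕ × Fin N → Fin N → Ls A) : Prop where
  low : ∀ q, v (ι q) = b (Pi.single q 1)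
  out : ∀ z p, p ∉ Set.range ι → pol N A (lin v z) p = z p

variable {b : (κ → A) →ₗ[A] (Fin N → Ls A)} {v : ℕ × Fin N → Fin N → Ls A}
  {M O : Submodule A (Fin N → Ls A)}

theorem exists_lvl (hι : Function.Injective ι)
    (hO : ∀ w, w ∈ O ↔ ∀ p, p ∉ Set.range ι → pol N A w p = 0) (hs : M ⊔ O = ⊤)
    (hb : ∀ c, b c ∈ M ⊓ O) : ∃ v, Lvl ι b v ∧ ∀ p, v p ∈ M := by
  classical
  have h1 : ∀ w : Fin N → Ls A, ∃ m ∈ M, w - m ∈ O := fun w => by
    have hw : w ∈ M ⊔ O := by rw [hs]; trivial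
    obtain ⟨m, hm, o, ho, e⟩ := Submodule.mem_sup.1 hw
    exact ⟨m, hm, by rw [← e, add_sub_cancel_left]; exact ho⟩
  choose m hm hm' using h1
  let v : ℕ × Fin N → Fin N → Ls A := fun p =>
    if h : p ∈ Set.range ι then b (Pi.single h.choose 1) else m (std N A p)
  have h2 : ∀ p p', p' ∉ Set.range ι → pol N A (v p) p' = (Finsupp.single p (1 : A)) p' := by
    intro p p' hp'
    by_cases h : p ∈ Set.range ι
    · rw [show v p = b (Pi.single h.choose 1) from dif_pos h, (hO _).1 (hb _).2 p' hp',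
        Finsupp.single_eq_of_ne fun e : p' = p => hp' (e ▸ h)]
    · have h3 := (hO _).1 (hm' (std N A p)) p' hp'
      rw [map_sub, Finsupp.sub_apply, pol_std, sub_eq_zero] at h3
      rw [show v p = m (std N A p) from dif_neg h, ← h3]
  refine ⟨v, ⟨fun q => ?_, fun z p hp => ?_⟩, fun p => ?_⟩
  · have h : ι q ∈ Set.range ι := ⟨q, rfl⟩
    rw [show v (ι q) = b (Pi.single h.choose 1) from dif_pos h, hι h.choose_spec]
  · induction z using Finsupp.induction_linear with
    | zero => rw [map_zero, map_zero]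
    | add x y hx hy => rw [map_add, map_add, Finsupp.add_apply, hx, hy, Finsupp.add_apply]
    | single q a =>
      rw [← Finsupp.smul_single_one, map_smul, map_smul, Finsupp.smul_apply, lin_single,
        h2 q p hp, Finsupp.smul_apply]
  · by_cases h : p ∈ Set.range ι
    · rw [show v p = b (Pi.single h.choose 1) from dif_pos h]; exact (hb _).1
    · rw [show v p = m (std N A p) from dif_neg h]; exact hm _

theorem Lvl.finRank (h : Lvl ι b v) : FinRank (pol N A ∘ₗ lin v - 1) := by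
  classical
  refine ⟨Finset.univ.image ι, fun z p hp => ?_⟩
  refine sub_eq_zero.2 (h.out z p ?_)
  rintro ⟨q, rfl⟩
  exact hp (Finset.mem_image_of_mem _ (Finset.mem_univ q))

theorem Lvl.lin_lvk (h : Lvl ι b v) (c : κ → A) : lin v (lvk ι A c) = b c := by
  have e : lin v ∘ₗ lvk ι A = b := (Pi.basisFun A κ).ext fun q => by
    rw [Pi.basisFun_apply, LinearMap.comp_apply, lvk_single, lin_single, h.low]
  exact LinearMap.congr_fun e c

theorem Lvl.range_eq (h : Lvl ι b v) (hO : ∀ w, w ∈ O ↔ ∀ p, p ∉ Set.range ι → pol N A w p = 0)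
    (hv : ∀ p, v p ∈ M) (hb : M ⊓ O ≤ LinearMap.range b) : LinearMap.range (lin v) = M := by
  have h1 : LinearMap.range (lin v) ≤ M := range_lin_le.2 hv
  refine le_antisymm h1 fun m hm => ?_
  obtain ⟨c, hc⟩ := hb (x := m - lin v (pol N A m)) ⟨sub_mem hm (h1 ⟨_, rfl⟩), (hO _).2 fun p hp => by
    rw [map_sub, Finsupp.sub_apply, h.out _ _ hp, sub_self]⟩
  exact ⟨lvk ι A c + pol N A m, by rw [map_add, h.lin_lvk, hc, sub_add_cancel]⟩

theorem Lvl.adm (h : Lvl ι b v) (hι : Function.Injective ι) (L : (Fin N → Ls A) →ₗ[A] (κ → A))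
    (n : ℤ) (hL : ∀ z, L (b z) = z) (h0 : ∀ w, (∀ i, Ord n (w i)) → L w = 0) : Adm v := by
  refine ⟨h.finRank, max n 0, hik ι A ∘ₗ pol N A +
    lvk ι A ∘ₗ L ∘ₗ (LinearMap.id - lin v ∘ₗ hik ι A ∘ₗ pol N A), LinearMap.ext fun z => ?_,
    fun w hw => ?_⟩
  · have h1 : hik ι A (pol N A (lin v z)) = hik ι A z := hik_congr hι (h.out z)
    simp only [LinearMap.comp_apply, LinearMap.add_apply, LinearMap.sub_apply, LinearMap.id_apply,
      Module.End.one_apply, h1]
    rw [← map_sub, hik_apply, sub_sub_cancel, h.lin_lvk, hL, sub_add_cancel]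
  · have h1 : pol N A w = 0 := pol_eq_zero.2 fun i => (hw i).mono (le_max_right _ _)
    simp only [LinearMap.comp_apply, LinearMap.add_apply, LinearMap.sub_apply, LinearMap.id_apply,
      h1, map_zero, sub_zero, zero_add]
    rw [h0 w fun i => (hw i).mono (le_max_left _ _), map_zero]

end Lvl

theorem on_iff_pol (k : ℕ) (w : Fin N → Ls A) :
    w ∈ On N A (-k) ↔ ∀ p : ℕ × Fin N, k ≤ p.1 → pol N A w p = 0 := by
  constructor
  · intro h p hp
    rw [pol_apply]
    exact h _ _ (by omega)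
  · intro h i j hj
    have h1 := h ((-j - 1).toNat, i) (by change k ≤ (-j - 1).toNat; omega)
    rw [pol_apply] at h1
    rwa [show (-(((-j - 1).toNat : ℕ) + 1 : ℤ)) = j by omega] at h1

/-- The levels below `k`. -/
def ik (N k : ℕ) (q : Fin k × Fin N) : ℕ × Fin N := (q.1, q.2)

theorem ik_inj (N k : ℕ) : Function.Injective (ik N k) := fun _ _ h =>
  Prod.ext (Fin.ext (congrArg Prod.fst h)) (congrArg (fun p : ℕ × Fin N => p.2) h)

theorem on_ik (k : ℕ) (w : Fin N → Ls A) :
    w ∈ On N A (-k) ↔ ∀ p, p ∉ Set.range (ik N k) → pol N A w p = 0 := by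
  rw [on_iff_pol]
  refine forall_congr' fun p => imp_congr_left ⟨fun h => ?_, fun h => ?_⟩
  · rintro ⟨q, rfl⟩
    exact absurd q.1.2 (not_lt.2 h)
  · exact not_lt.1 fun h' => h ⟨(⟨p.1, h'⟩, p.2), rfl⟩

theorem admk : ADMK := fun A _ N k M b L n hs hb hL h0 => by
  obtain ⟨v, hv, hM⟩ := exists_lvl (ik_inj N k) (on_ik k) hs (b := b) fun c => hb.le ⟨c, rfl⟩
  exact ⟨v, hv.adm (ik_inj N k) L n hL h0, hv.range_eq (on_ik k) hM hb.ge⟩

/-- The level `0`. -/
def i0 (N : ℕ) (q : Fin N) : ℕ × Fin N := (0, q)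

theorem i0_inj (N : ℕ) : Function.Injective (i0 N) := fun _ _ h => congrArg Prod.snd h

theorem not_mem_i0 {p : ℕ × Fin N} : p ∉ Set.range (i0 N) ↔ p.1 ≠ 0 :=
  not_congr ⟨fun ⟨_, h⟩ => (congrArg Prod.fst h).symm, fun h => ⟨p.2, Prod.ext h.symm rfl⟩⟩

theorem on_i0 (w : Fin N → Ls A) :
    w ∈ On N A (-1) ↔ ∀ p, p ∉ Set.range (i0 N) → pol N A w p = 0 := by
  refine (on_iff_pol 1 w).trans (forall_congr' fun p => imp_congr_left ?_)
  rw [not_mem_i0]
  omega

/-- The constant vectors. -/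
def cv (N : ℕ) (A : Type) [CommRing A] : (Fin N → A) →ₗ[A] (Fin N → Ls A) where
  toFun c := HahnSeries.C ∘ c
  map_add' c d := funext fun i => map_add (HahnSeries.C : A →+* Ls A) (c i) (d i)
  map_smul' a c := funext fun i =>
    (map_mul (HahnSeries.C : A →+* Ls A) a (c i)).trans (C_mul a _)

theorem cv_apply (c : Fin N → A) : cv N A c = HahnSeries.C ∘ c := rfl

theorem act_cv_single (S : Matrix (Fin N) (Fin N) (Ls A)) (q : Fin N) :
    (act S ∘ₗ cv N A) (Pi.single q 1) = fun i => S i q := by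
  have e : cv N A (Pi.single q 1) = Pi.single q 1 := funext fun i => by
    rw [cv_apply, Function.comp_apply]
    by_cases h : i = q
    · rw [h, Pi.single_eq_same, Pi.single_eq_same, map_one]
    · rw [Pi.single_eq_of_ne h, Pi.single_eq_of_ne h, map_zero]
  rw [LinearMap.comp_apply, e, act_apply, mulVec_single_one]
  rfl

theorem act_cv_mem {S : Matrix (Fin N) (Fin N) (Ls A)} {P : Submodule A (Fin N → Ls A)}
    (h : Col P S) (c : Fin N → A) : (act S ∘ₗ cv N A) c ∈ P := by
  rw [pi_eq_sum_univ' c, map_sum]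
  refine P.sum_mem fun q _ => ?_
  rw [map_smul, act_cv_single]
  exact P.smul_mem _ (h q)

/-- The function `Θ` of an adapted family. -/
theorem Lvl.th {S : Matrix (Fin N) (Fin N) (Ls A)} {v : ℕ × Fin N → Fin N → Ls A}
    (h : Lvl (i0 N) (act S ∘ₗ cv N A) v) : Th v = S.det := by
  have e : tk v = 1 + lv N (Ls A) ∘ₗ (pr N (Ls A) ∘ₗ tk v - pr N (Ls A)) :=
    end_ext_single fun p => q_ext
      (fun i => by
        rw [LinearMap.add_apply, Finsupp.add_apply, LinearMap.comp_apply, lv_zero,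
          LinearMap.sub_apply, Pi.sub_apply, LinearMap.comp_apply, pr_apply, pr_apply,
          Module.End.one_apply, add_sub_cancel])
      fun q hq => by
        rw [LinearMap.add_apply, Finsupp.add_apply, LinearMap.comp_apply, lv_succ _ hq, add_zero,
          tk_single, ex_succ _ hq, ← lin_single v p, h.out _ _ (not_mem_i0.2 hq),
          Module.End.one_apply, Finsupp.single_apply, Finsupp.single_apply]
        split_ifs <;> simp
  rw [Th, e, fdet_lv]
  congr 1
  ext1 i j
  rw [Matrix.add_apply, LinearMap.toMatrix'_apply, LinearMap.comp_apply, LinearMap.sub_apply, pr_lv,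
    lv_single, Pi.sub_apply, Matrix.one_apply, Pi.single_apply, add_sub_cancel,
    LinearMap.comp_apply, tk_single, pr_ex]
  exact congrFun ((h.low j).trans (act_cv_single S j)) i

theorem exists_lvl0 {M : Submodule A (Fin N → Ls A)} (hs : M ⊔ On N A (-1) = ⊤)
    {S : Matrix (Fin N) (Fin N) (Ls A)} (h1 : Col M S) (h2 : OrdM (-1) S) :
    ∃ v, Lvl (i0 N) (act S ∘ₗ cv N A) v ∧ ∀ p, v p ∈ M :=
  exists_lvl (i0_inj N) on_i0 hs fun c =>
    ⟨act_cv_mem h1 c, act_cv_mem (P := On N A (-1)) (fun j i => h2 i j) c⟩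

theorem Adm.finRank_chg' {v w : ℕ × Fin N → Fin N → Ls A} (hv : FinRank (pol N A ∘ₗ lin v - 1))
    (hw : Adm w) (h : LinearMap.range (lin v) ≤ LinearMap.range (lin w)) :
    FinRank (chg w v - 1) := by
  have e : pol N A ∘ₗ lin v = (pol N A ∘ₗ lin w) * chg w v := by
    rw [← hw.lin_chg h]; rfl
  have e2 : chg w v - 1 = (pol N A ∘ₗ lin v - 1) - (pol N A ∘ₗ lin w - 1) * chg w v := by
    rw [e]; exact rg2 (pol N A ∘ₗ lin w : Module.End A (Qm N A)) (chg w v)
  rw [e2]
  exact hv.sub (hw.1.mul_right _)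

/-- The function `Θ` under a change of the basis. -/
theorem Adm.th_chg {v w : ℕ × Fin N → Fin N → Ls A} (hv : FinRank (pol N A ∘ₗ lin v - 1))
    (hw : Adm w) (h : LinearMap.range (lin v) ≤ LinearMap.range (lin w)) :
    Th v = fdet (chg w v) • Th w := by
  rw [← Th_comp hw.1 (Adm.finRank_chg' hv hw h), hw.lin_chg h]
  congr 1
  funext p
  rw [fam, lin_single]

theorem pl : PL := fun A _ N v M hv hM hs S h1 h2 => by
  obtain ⟨w, hw, hwM⟩ := exists_lvl0 hs h1 h2
  exact ⟨_, hw.th.symm.trans (Adm.th_chg hw.finRank hv (hM ▸ range_lin_le.2 hwM))⟩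

theorem exists_ordM {m l : Type} [Fintype m] [Fintype l] (W : Matrix m l (Ls A)) :
    ∃ k : ℤ, OrdM k W := by
  choose n hn using fun p : m × l => exists_ord (W p.1 p.2)
  obtain ⟨k, hk⟩ := (Set.finite_range n).bddBelow
  exact ⟨k, fun i j => (hn (i, j)).mono (hk ⟨(i, j), rfl⟩)⟩

theorem adm1 : ADM1 := fun A _ N M S l n hs h1 h2 h3 hl h0 => by
  obtain ⟨v, hv, hM⟩ := exists_lvl0 hs h1 h2
  obtain ⟨k, hk⟩ := exists_ordM S.adjugate
  refine ⟨v, hv.adm (i0_inj N) (LinearMap.pi fun i => l ∘ₗ LinearMap.proj i ∘ₗ act S.adjugate)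
    (n - k) (fun z => funext fun i => ?_) fun w hw => funext fun i => ?_,
    hv.range_eq on_i0 hM fun m hm => ?_, hv.th⟩
  · change l ((S.adjugate *ᵥ (S *ᵥ (HahnSeries.C ∘ z))) i) = z i
    rw [mulVec_mulVec, adjugate_mul, smul_mulVec, one_mulVec, Pi.smul_apply, smul_eq_mul,
      Function.comp_apply, mul_comm, C_mul, map_smul, hl, smul_eq_mul, mul_one]
  · change l ((S.adjugate *ᵥ w) i) = 0
    refine h0 _ (Ord.sum _ fun j _ => ?_)
    have := (hk i j).mul' (hw j)
    rwa [add_sub_cancel] at this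
  · obtain ⟨c, hc⟩ := h3 m hm
    exact ⟨c, hc.symm⟩

end

end Vale.Agent.P286E
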