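import Vale.Agent.P286E.Defs
import Vale.Agent.P286.H211.Fred

/-!
# Laurent series, polar parts, admissible bases
-/

set_option linter.all false

namespace Vale.Agent.P286E

open Matrix Vale.Agent.P286

noncomputable section

attribute [-instance] HahnSeries.powerSeriesAlgebra

variable {A B D : Type} [CommRing A] [CommRing B] [CommRing D] {N : ℕ}

/-! ### Series -/

@[simp] theorem lm_coeff (f : A →+* B) (w : Ls A) (k : ℤ) : (lm f w).coeff k = f (w.coeff k) := rfl

theorem lm_id (w : Ls A) : lm (RingHom.id A) w = w := rfl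

theorem lm_single (f : A →+* B) (k : ℤ) (a : A) :
    lm f (HahnSeries.single k a) = HahnSeries.single k (f a) :=
  HahnSeries.map_single (f := f.toZeroHom)

theorem lm_C (f : A →+* B) (a : A) : lm f (HahnSeries.C a) = HahnSeries.C (f a) := lm_single f 0 a

theorem lm_xs (f : A →+* B) : lm f (xs A) = xs B := by
  rw [xs, lm_single, map_one]; rfl

theorem C_mul (a : A) (w : Ls A) : HahnSeries.C a * w = a • w := HahnSeries.C_mul_eq_smul

theorem lm_smul (f : A →+* B) (a : A) (w : Ls A) : lm f (a • w) = f a • lm f w := by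
  rw [← C_mul, map_mul, lm_C, C_mul]

theorem csmul (a : A) (v : Fin N → Ls A) : a • v = (HahnSeries.C a : Ls A) • v :=
  funext fun i => (C_mul a (v i)).symm

/-- The power `t ^ n`. -/
def tp (A : Type) [CommRing A] (n : ℤ) : Ls A := HahnSeries.single n 1

theorem tp_mul (m n : ℤ) : tp A m * tp A n = tp A (m + n) := by
  rw [tp, tp, HahnSeries.single_mul_single, mul_one]; rfl

theorem tp_zero : tp A 0 = 1 := rfl

theorem lm_tp (f : A →+* B) (n : ℤ) : lm f (tp A n) = tp B n := by
  rw [tp, lm_single, map_one]; rfl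

theorem coeff_tp_mul (n k : ℤ) (w : Ls A) : (tp A n * w).coeff k = w.coeff (k - n) := by
  have h := HahnSeries.coeff_single_mul_add (r := (1 : A)) (x := w) (a := k - n) (b := n)
  rw [sub_add_cancel, one_mul] at h
  exact h

theorem Ord.zero (n : ℤ) : Ord n (0 : Ls A) := fun _ _ => rfl

theorem Ord.add {n : ℤ} {u w : Ls A} (hu : Ord n u) (hw : Ord n w) : Ord n (u + w) :=
  fun k hk => by rw [HahnSeries.coeff_add, hu k hk, hw k hk, add_zero]

theorem Ord.neg {n : ℤ} {u : Ls A} (hu : Ord n u) : Ord n (-u) :=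
  fun k hk => by rw [HahnSeries.coeff_neg, hu k hk, neg_zero]

theorem Ord.sub {n : ℤ} {u w : Ls A} (hu : Ord n u) (hw : Ord n w) : Ord n (u - w) := by
  rw [sub_eq_add_neg]; exact hu.add hw.neg

theorem Ord.smul {n : ℤ} (a : A) {u : Ls A} (hu : Ord n u) : Ord n (a • u) :=
  fun k hk => by rw [HahnSeries.coeff_smul, hu k hk, smul_zero]

theorem Ord.mono {m n : ℤ} (h : m ≤ n) {u : Ls A} (hu : Ord n u) : Ord m u :=
  fun k hk => hu k (hk.trans_le h)

theorem Ord.sum {ι : Type*} {n : ℤ} (s : Finset ι) {u : ι → Ls A} (h : ∀ i ∈ s, Ord n (u i)) :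
    Ord n (∑ i ∈ s, u i) := fun k hk => by
  rw [HahnSeries.coeff_sum]
  exact Finset.sum_eq_zero fun i hi => h i hi k hk

theorem Ord.mul' {m n : ℤ} {u w : Ls A} (hu : Ord m u) (hw : Ord n w) : Ord (m + n) (u * w) :=
  fun k hk => by
  rw [HahnSeries.coeff_mul]
  refine Finset.sum_eq_zero fun p hp => ?_
  have h : p.1 + p.2 = k := ((Finset.mem_antidiagonal (hs := u.isPWO_support)
    (ht := w.isPWO_support)).1 hp).2.2
  by_cases h1 : p.1 < m
  · rw [hu _ h1, zero_mul]
  · rw [hw p.2 (by omega), mul_zero]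

theorem Ord.mul_left {n : ℤ} {u w : Ls A} (hu : Ord 0 u) (hw : Ord n w) : Ord n (u * w) := by
  have h := hu.mul' hw
  rwa [zero_add] at h

theorem Ord.single (n : ℤ) (a : A) : Ord n (HahnSeries.single n a : Ls A) :=
  fun _ hk => HahnSeries.coeff_single_of_ne hk.ne

theorem Ord.tp (n : ℤ) : Ord n (tp A n) := Ord.single n 1

theorem Ord.C (a : A) : Ord 0 (HahnSeries.C a : Ls A) := Ord.single 0 a

theorem Ord.one : Ord 0 (1 : Ls A) := Ord.single 0 1

theorem Ord.lm (f : A →+* B) {n : ℤ} {u : Ls A} (hu : Ord n u) : Ord n (lm f u) :=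
  fun k hk => by rw [lm_coeff, hu k hk, map_zero]

theorem ord_tp_mul {n m : ℤ} {w : Ls A} : Ord (n + m) (tp A n * w) ↔ Ord m w := by
  constructor
  · intro h k hk
    have := h (k + n) (by omega)
    rwa [coeff_tp_mul, add_sub_cancel_right] at this
  · exact fun h => (Ord.tp n).mul' h

theorem exists_ord (w : Ls A) : ∃ n : ℤ, Ord n w :=
  ⟨w.order, fun _ hk => HahnSeries.coeff_eq_zero_of_lt_order hk⟩

theorem eq_zero_of_ord {w : Ls A} (h : ∀ n : ℤ, Ord n w) : w = 0 := by
  ext k
  exact h (k + 1) k (by omega)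

/-- The power series, as a subring. -/
def Oo (A : Type) [CommRing A] : Subring (Ls A) where
  carrier := {w | Ord 0 w}
  mul_mem' := Ord.mul
  one_mem' := Ord.one
  add_mem' := Ord.add
  zero_mem' := Ord.zero 0
  neg_mem' := Ord.neg

/-- A matrix of power series. -/
def IntM {m n : Type} (a : Matrix m n (Ls A)) : Prop := ∀ i j, Ord 0 (a i j)

theorem IntM.mul {l m n : Type} [Fintype m] {a : Matrix l m (Ls A)} {b : Matrix m n (Ls A)}
    (ha : IntM a) (hb : IntM b) : IntM (a * b) := fun i j => by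
  rw [Matrix.mul_apply]
  exact Ord.sum _ fun l _ => (ha i l).mul (hb l j)

theorem IntM.one {n : Type} [DecidableEq n] : IntM (1 : Matrix n n (Ls A)) := fun i j => by
  rw [Matrix.one_apply]
  split_ifs
  · exact Ord.one
  · exact Ord.zero 0

theorem IntM.map {m n : Type} (f : A →+* B) {a : Matrix m n (Ls A)} (ha : IntM a) :
    IntM (a.map (lm f)) := fun i j => (ha i j).lm f

theorem IntM.lift {m n : Type} {a : Matrix m n (Ls A)} (ha : IntM a) :
    ∃ b : Matrix m n (Oo A), b.map (Oo A).subtype = a :=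
  ⟨of fun i j => ⟨a i j, ha i j⟩, rfl⟩

theorem IntM.of_map {m n : Type} (b : Matrix m n (Oo A)) : IntM (b.map (Oo A).subtype) :=
  fun i j => (b i j).2

theorem IntM.adjugate {n : Type} [Fintype n] [DecidableEq n] {a : Matrix n n (Ls A)}
    (ha : IntM a) : IntM a.adjugate := by
  obtain ⟨b, rfl⟩ := ha.lift
  rw [← RingHom.mapMatrix_apply, ← RingHom.map_adjugate]
  exact IntM.of_map _

theorem IntM.det {n : Type} [Fintype n] [DecidableEq n] {a : Matrix n n (Ls A)}
    (ha : IntM a) : Ord 0 a.det := by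
  obtain ⟨b, rfl⟩ := ha.lift
  rw [← RingHom.mapMatrix_apply, ← RingHom.map_det]
  exact (b.det).2

theorem IntM.transpose {m n : Type} {a : Matrix m n (Ls A)} (ha : IntM a) : IntM aᵀ :=
  fun i j => ha j i

theorem IntM.trace {n : Type} [Fintype n] {a : Matrix n n (Ls A)} (ha : IntM a) :
    Ord 0 a.trace := Ord.sum _ fun i _ => ha i i

theorem IntM.cst [Algebra ℂ A] (m : Matrix (Fin N) (Fin N) ℂ) : IntM (cst A m) :=
  fun _ _ => Ord.C _

theorem IntM.mulVec {m n : Type} [Fintype n] {a : Matrix m n (Ls A)} (ha : IntM a) {k : ℤ}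
    {v : n → Ls A} (hv : ∀ i, Ord k (v i)) (i : m) : Ord k ((a *ᵥ v) i) :=
  Ord.sum _ fun j _ => (ha i j).mul_left (hv j)

/-! ### Polar parts -/

theorem pol_apply (v : Fin N → Ls A) (p : ℕ × Fin N) :
    pol N A v p = (v p.2).coeff (-(p.1 + 1 : ℤ)) := rfl

theorem pol_eq_zero {v : Fin N → Ls A} : pol N A v = 0 ↔ ∀ i, Ord 0 (v i) := by
  constructor
  · intro h i k hk
    have h1 := congrArg (fun z : Qm N A => z ((-k - 1).toNat, i)) h
    simp only [pol_apply, Finsupp.coe_zero, Pi.zero_apply] at h1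
    rwa [show (-(((-k - 1).toNat : ℕ) + 1 : ℤ)) = k by omega] at h1
  · intro h
    ext p
    exact h p.2 _ (by omega)

theorem lin_single (v : ℕ × Fin N → Fin N → Ls A) (p : ℕ × Fin N) :
    lin v (Finsupp.single p 1) = v p := by
  rw [lin, Finsupp.linearCombination_single, one_smul]

theorem mem_range_lin (v : ℕ × Fin N → Fin N → Ls A) (p : ℕ × Fin N) :
    v p ∈ LinearMap.range (lin v) := ⟨_, lin_single v p⟩

theorem range_lin (v : ℕ × Fin N → Fin N → Ls A) :
    LinearMap.range (lin v) = Submodule.span A (Set.range v) := Finsupp.range_linearCombination _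

theorem range_lin_le {v : ℕ × Fin N → Fin N → Ls A} {M : Submodule A (Fin N → Ls A)} :
    LinearMap.range (lin v) ≤ M ↔ ∀ p, v p ∈ M := by
  rw [range_lin, Submodule.span_le, Set.range_subset_iff]
  rfl

theorem qm_ext {V : Type} [AddCommGroup V] [Module A V] {φ ψ : Qm N A →ₗ[A] V}
    (h : ∀ p, φ (Finsupp.single p 1) = ψ (Finsupp.single p 1)) : φ = ψ := by
  ext p : 2
  simpa using h p

/-- The family of the values of a linear map on the basis. -/
def fam (φ : Qm N A →ₗ[A] (Fin N → Ls A)) (p : ℕ × Fin N) : Fin N → Ls A :=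
  φ (Finsupp.single p 1)

theorem lin_fam (φ : Qm N A →ₗ[A] (Fin N → Ls A)) : lin (fam φ) = φ :=
  qm_ext fun p => lin_single _ p

theorem pol_std (p : ℕ × Fin N) : pol N A (std N A p) = Finsupp.single p 1 := by
  ext q
  rw [pol_apply, std, Finsupp.single_apply]
  by_cases h2 : q.2 = p.2
  · rw [h2, Pi.single_eq_same]
    by_cases h1 : p.1 = q.1
    · rw [h1, HahnSeries.coeff_single_same, if_pos (Prod.ext h1 h2.symm)]
    · rw [HahnSeries.coeff_single_of_ne (by omega), if_neg fun h => h1 (congrArg Prod.fst h)]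
  · rw [Pi.single_eq_of_ne h2, if_neg fun h => h2 (congrArg Prod.snd h).symm]
    rfl

theorem pol_comp_std : pol N A ∘ₗ lin (std N A) = 1 :=
  qm_ext fun p => by rw [LinearMap.comp_apply, lin_single, pol_std]; rfl

theorem pol_lin_std (z : Qm N A) : pol N A (lin (std N A) z) = z :=
  LinearMap.congr_fun pol_comp_std z

theorem ord_sub_std (v : Fin N → Ls A) (i : Fin N) :
    Ord 0 ((v - lin (std N A) (pol N A v)) i) :=
  pol_eq_zero.1 (by rw [map_sub, pol_lin_std, sub_self]) i

theorem lm_lin (f : A →+* B) (v : ℕ × Fin N → Fin N → Ls A) (z : Qm N A) :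
    lm f ∘ lin v z = lin (fun p => lm f ∘ v p) (z.mapRange f (map_zero f)) := by
  induction z using Finsupp.induction_linear with
  | zero =>
    rw [map_zero, Finsupp.mapRange_zero, map_zero]
    funext i
    exact map_zero (lm f)
  | add x y hx hy =>
    rw [Finsupp.mapRange_add (map_add f), map_add, map_add, ← hx, ← hy]
    funext i
    exact map_add (lm f) _ _
  | single p a =>
    rw [Finsupp.mapRange_single, lin, lin, Finsupp.linearCombination_single,
      Finsupp.linearCombination_single]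
    funext i
    exact lm_smul f a _

theorem pol_lm (f : A →+* B) (v : Fin N → Ls A) :
    pol N B (lm f ∘ v) = (pol N A v).mapRange f (map_zero f) := by
  ext p
  rfl

theorem lm_std (f : A →+* B) (p : ℕ × Fin N) : lm f ∘ std N A p = std N B p := by
  funext i
  rw [Function.comp_apply, std, std]
  by_cases h : i = p.2
  · rw [h, Pi.single_eq_same, Pi.single_eq_same, lm_single, map_one]
  · rw [Pi.single_eq_of_ne h, Pi.single_eq_of_ne h, map_zero]

theorem lm_mulVec {m n : Type} [Fintype n] (f : A →+* B) (a : Matrix m n (Ls A)) (v : n → Ls A) :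
    lm f ∘ (a *ᵥ v) = a.map (lm f) *ᵥ (lm f ∘ v) :=
  funext fun i => RingHom.map_mulVec (lm f) a v i

@[simp] theorem act_apply (a : Matrix (Fin N) (Fin N) (Ls A)) (v : Fin N → Ls A) :
    act a v = a *ᵥ v := rfl

theorem act_mul (a b : Matrix (Fin N) (Fin N) (Ls A)) : act (a * b) = act a ∘ₗ act b :=
  LinearMap.ext fun v => (mulVec_mulVec v a b).symm

theorem act_one : act (1 : Matrix (Fin N) (Fin N) (Ls A)) = LinearMap.id :=
  LinearMap.ext fun v => one_mulVec v

/-- The action of a matrix on the polar parts. -/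
def pa (a : Matrix (Fin N) (Fin N) (Ls A)) : Module.End A (Qm N A) :=
  pol N A ∘ₗ act a ∘ₗ lin (std N A)

theorem pa_pol {a : Matrix (Fin N) (Fin N) (Ls A)} (ha : IntM a) (v : Fin N → Ls A) :
    pa a (pol N A v) = pol N A (a *ᵥ v) := by
  have h : pol N A (a *ᵥ (v - lin (std N A) (pol N A v))) = 0 :=
    pol_eq_zero.2 (ha.mulVec (ord_sub_std v))
  rw [mulVec_sub, map_sub, sub_eq_zero] at h
  exact h.symm

theorem pa_mul {a : Matrix (Fin N) (Fin N) (Ls A)} (ha : IntM a)
    (b : Matrix (Fin N) (Fin N) (Ls A)) : pa (a * b) = pa a * pa b :=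
  LinearMap.ext fun z => by
    rw [Module.End.mul_apply]
    change pol N A ((a * b) *ᵥ _) = pa a (pol N A (b *ᵥ _))
    rw [pa_pol ha, mulVec_mulVec]

theorem pa_one : pa (1 : Matrix (Fin N) (Fin N) (Ls A)) = 1 := by
  rw [pa, act_one, LinearMap.id_comp, pol_comp_std]

theorem bc_pol_lin (f : A →+* B) (v : ℕ × Fin N → Fin N → Ls A) :
    bc f (pol N A ∘ₗ lin v) = pol N B ∘ₗ lin (fun p => lm f ∘ v p) :=
  qm_ext fun p => by
    rw [bc_single, LinearMap.comp_apply, LinearMap.comp_apply, lin_single, lin_single, pol_lm]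

theorem bc_pa (f : A →+* B) (a : Matrix (Fin N) (Fin N) (Ls A)) :
    bc f (pa a) = pa (a.map (lm f)) :=
  qm_ext fun p => by
    rw [bc_single]
    change (pol N A (a *ᵥ lin _ _)).mapRange f _ = pol N B (_ *ᵥ lin _ _)
    rw [lin_single, lin_single, ← pol_lm, lm_mulVec, lm_std]

/-- Base change of the expression of one family by another one. -/
theorem lin_bc (f : A →+* B) (v : ℕ × Fin N → Fin N → Ls A) (φ : Module.End A (Qm N A)) :
    lin (fun p => lm f ∘ v p) ∘ₗ bc f φ = lin (fun p => lm f ∘ fam (lin v ∘ₗ φ) p) :=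
  qm_ext fun p => by
    rw [LinearMap.comp_apply, bc_single, ← lm_lin, lin_single]
    rfl

/-- The invertible operator on the polar parts defined by an invertible integral matrix. -/
def paU {a b : Matrix (Fin N) (Fin N) (Ls A)} (ha : IntM a) (hb : IntM b) (h : a * b = 1)
    (h' : b * a = 1) : (Module.End A (Qm N A))ˣ :=
  ⟨pa a, pa b, by rw [← pa_mul ha, h, pa_one], by rw [← pa_mul hb, h', pa_one]⟩

end

end Vale.Agent.P286E
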