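import Vale.Agent.P286EF.Pl
import Vale.Agent.P286EF.Ob

/-!
# The cocycle of the canonical bundle and the function `Θ` of the adjoint lattice
-/

set_option linter.all false

namespace Vale.Agent.P286E

open Matrix Vale.Agent.P286 Vale.Agent.P286EB
open Vale.Agent.P286ER (bcM)

noncomputable section

attribute [-instance] HahnSeries.powerSeriesAlgebra

section

variable {A B : Type} [CommRing A] [CommRing B] {N : ℕ}

theorem Th_gau {a b : Matrix (Fin N) (Fin N) (Ls A)} (ha : IntM a) (hb : IntM b) (h : a * b = 1)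
    (hd : a.det = 1) {v : ℕ × Fin N → Fin N → Ls A} (hv : Adm v) : Th (gau a b v) = Th v :=
  Th_act ha hb h hd hv.1

/-- Two admissible bases of the same lattice. -/
theorem Adm.th_unit {v w : ℕ × Fin N → Fin N → Ls A} (hv : Adm v) (hw : Adm w)
    (h : LinearMap.range (lin v) ≤ LinearMap.range (lin w)) : ∃ u : Aˣ, Th v = (u : A) • Th w := by
  obtain ⟨u, hu⟩ := hv.isUnit_fdet_chg hw h
  exact ⟨u, by rw [hu]; exact Adm.th_chg hv.1 hw h⟩

/-- The function `Θ` of a transported lattice. -/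
theorem th_transport (f : A →+* B) {a : Matrix (Fin N) (Fin N) (Ls B)} (ha : IntM a)
    (hd : a.det = 1) {v : ℕ × Fin N → Fin N → Ls A} {w : ℕ × Fin N → Fin N → Ls B} (hv : Adm v)
    (hw : Adm w) (h : ∀ p, a *ᵥ (lm f ∘ v p) ∈ LinearMap.range (lin w)) :
    ∃ u : Bˣ, lm f (Th v) = (u : B) • Th w := by
  have h1 : a * a.adjugate = 1 := by rw [mul_adjugate, hd, one_smul]
  have h2 : a.adjugate * a = 1 := by rw [adjugate_mul, hd, one_smul]
  obtain ⟨u, hu⟩ := ((hv.bc f).gau ha ha.adjugate h1 h2).th_unit hw (by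
    rw [range_gau ha ha.adjugate h2]
    rintro _ ⟨m, hm, rfl⟩
    exact (range_lin_le (M := (LinearMap.range (lin w)).comap (act a))).2 h hm)
  exact ⟨u, by rw [← hu, Th_gau ha ha.adjugate h1 hd (hv.bc f), Th_lm f hv.1]⟩

end

variable {E : Ell} {G : Grp} {X Y : Ob E G}

theorem Mo.th_tT (hG : G.Ok) (φ : Mo X Y) (hd : (G.ad φ.a).det = 1) :
    Th φ.tT = lm φ.f.r (Th X.T) := by
  rw [Mo.tT, Th_gau φ.intM.ad φ.intM.adjugate.ad (hG.ad_mul_adj φ.inG) hd (X.admT.bc _),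
    Th_lm _ X.admT.1]

theorem Mo.dl_th (hG : G.Ok) (φ : Mo X Y) (hd : (G.ad φ.a).det = 1) :
    φ.dl • lm φ.f.r (Th X.T) = Th Y.T := by
  rw [Adm.th_chg Y.admT.1 (φ.adm_tT hG) (φ.range_T hG).ge, φ.th_tT hG hd, φ.dl_eq_chg hG]

/-- The unit `δ` compares the functions `Θ` of the adjoint lattices. -/
theorem dlth (hD : DETAD) (hG : G = SL2 ∨ G = SO3) (φ : Mo X Y) :
    φ.dl • lm φ.f.r (Th X.T) = Th Y.T :=
  φ.dl_th (Grp.ok_of hG) (hD G hG _ _ φ.inG)

theorem dlth_coeff (hD : DETAD) (hG : G = SL2 ∨ G = SO3) (φ : Mo X Y) (k : ℤ) :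
    φ.dl * φ.f ((Th X.T).coeff k) = (Th Y.T).coeff k := by
  rw [← dlth hD hG φ]
  rfl

/-- The functions `Θ` of the lattices agree up to a unit. -/
theorem Mo.th_M (φ : Mo X Y) {v : ℕ × Fin G.N → Fin G.N → Ls X.A.R}
    {w : ℕ × Fin G.N → Fin G.N → Ls Y.A.R} (hv : Adm v) (hw : Adm w)
    (ev : LinearMap.range (lin v) = X.M) (ew : LinearMap.range (lin w) = Y.M) :
    ∃ u : (Y.A.R)ˣ, lm φ.f.r (Th v) = (u : Y.A.R) • Th w :=
  th_transport _ φ.intM φ.det hv hw fun p => ew ▸ φ.lat _ (ev ▸ mem_range_lin v p)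

end

end Vale.Agent.P286E
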