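import Vale.Agent.P286EF.Ob
import Vale.Agent.P286EO.Defs

/-!
# Principal open parts of the test objects
-/

set_option linter.all false

namespace Vale.Agent.P286E

open CategoryTheory Matrix Vale.Agent.P286
open Vale.Agent.P286ET (IsAway)
open Vale.Agent.P286EO (LocS)

noncomputable section

/-- The localisation of a smooth algebra. -/
def awayS (A : SmAlg) (a : A.R) : SmAlg :=
  letI : Algebra.Smooth A.R (Localization.Away a) := Algebra.Smooth.of_isLocalization_Away a
  letI : Algebra.Smooth ℂ (Localization.Away a) := Algebra.Smooth.comp ℂ A.R _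
  ⟨Localization.Away a⟩

/-- The localisation map. -/
def toAwayS (A : SmAlg) (a : A.R) : A.Hm (awayS A a) :=
  IsScalarTower.toAlgHom ℂ A.R (Localization.Away a)

theorem isAway_loc {A : Type} [CommRing A] [Algebra ℂ A] (a : A) :
    IsAway (IsScalarTower.toAlgHom ℂ A (Localization.Away a)) a where
  unit := IsLocalization.Away.algebraMap_isUnit a
  surj y := by
    obtain ⟨n, x, h⟩ := IsLocalization.Away.surj a y
    exact ⟨n, x, by rw [mul_comm]; exact h⟩
  ker x h := by
    obtain ⟨⟨_, n, rfl⟩, h⟩ := (IsLocalization.map_eq_zero_iff (Submonoid.powers a)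
      (Localization.Away a) x).1 h
    exact ⟨n, h⟩

theorem isAway_toAwayS (A : SmAlg) (a : A.R) : IsAway (toAwayS A a) a := isAway_loc a

/-- The universal property. -/
def liftLoc {A B : Type} [CommRing A] [Algebra ℂ A] [CommRing B] [Algebra ℂ B] (a : A)
    (f : A →ₐ[ℂ] B) (h : IsUnit (f a)) : Localization.Away a →ₐ[ℂ] B :=
  IsLocalization.liftAlgHom (M := Submonoid.powers a) (f := f) (by
    rintro ⟨_, n, rfl⟩
    simp only [map_pow]
    exact h.pow n)

theorem liftLoc_comp {A B : Type} [CommRing A] [Algebra ℂ A] [CommRing B] [Algebra ℂ B] (a : A)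
    (f : A →ₐ[ℂ] B) (h : IsUnit (f a)) :
    (liftLoc a f h).comp (IsScalarTower.toAlgHom ℂ A (Localization.Away a)) = f :=
  AlgHom.ext fun x => by simp [liftLoc]

theorem loc_ext {A B : Type} [CommRing A] [Algebra ℂ A] [CommRing B] [Algebra ℂ B] (a : A)
    {g g' : Localization.Away a →ₐ[ℂ] B}
    (h : g.comp (IsScalarTower.toAlgHom ℂ A (Localization.Away a)) =
      g'.comp (IsScalarTower.toAlgHom ℂ A (Localization.Away a))) : g = g' :=
  AlgHom.coe_ringHom_injective (IsLocalization.ringHom_ext (Submonoid.powers a)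
    (congrArg (fun u : A →ₐ[ℂ] B => (u : A →+* B)) h))

variable {E : Ell} {G : Grp}

theorem toBc_comp_a {X Y : Ob E G} {B : SmAlg} (f : X.A.Hm B) (ψ : Mo (X.bc B f) Y) :
    ((X.toBc B f).comp ψ).a = ψ.a :=
  (congrArg (ψ.a * ·) (Matrix.map_one _ (map_zero _) (map_one _))).trans (Matrix.mul_one _)

/-- The principal open parts. -/
def locS (hG : G.Ok) (E : Ell) (c : ℂ) : LocS (DE E G c) where
  ob X a := Ob.bc X (awayS X.A a) (toAwayS X.A a)
  ar X a := Ob.toBc X (awayS X.A a) (toAwayS X.A a)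
  away X a := isAway_toAwayS X.A a
  dl_ar X a := Ob.dl_toBc hG X _ _
  lift {X Y} φ a h := by
    refine ⟨Mo.lift hG φ (toAwayS X.A a) (liftLoc a (Mo.f φ) h) (liftLoc_comp a _ h),
      Mo.toBc_lift hG φ _ _ _, fun ψ e => ?_⟩
    refine Mo.ext (loc_ext a ?_) ?_
    · exact (congrArg Mo.f e).trans (liftLoc_comp a _ h).symm
    · exact (toBc_comp_a _ ψ).symm.trans (congrArg Mo.a e)

theorem locs (hG : G.Ok) (E : Ell) (c : ℂ) : Nonempty (LocS (DE E G c)) := ⟨locS hG E c⟩

end

end Vale.Agent.P286E
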